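import Vale.Agent.P144N.Star
import Vale.Agent.P144W.Sep

/-!
In a star-shaped domain the identity holds at almost every configuration of points.
-/

namespace Vale.Agent.P144N

open Filter Topology Set MeasureTheory Vale.Agent.P144 Vale.Agent.P144Z
open Vale.Agent.P144Q.B (shr good_shr)

variable {J lam β Zσ Zε : ℝ} {V : Finset Site → ℝ} {b : Option (ℝ → Config)}

theorem null_of_rays {n : ℕ} {B : Set (Fin n → ℂ)} (hB : MeasurableSet B)
    (h : ∀ x, {t : ℝ | 0 < t ∧ t • x ∈ B}.Countable) : volume B = 0 := by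
  have m : MeasurableSet {z : (Fin n → ℂ) × ℝ | ¬ (0 < z.2 ∧ z.2 • z.1 ∈ B)} :=
    ((measurableSet_lt measurable_const measurable_snd).inter
      ((continuous_snd.smul continuous_fst).measurable hB)).compl
  have h1 := (Measure.ae_ae_comm (μ := volume) (ν := volume)
    (p := fun (x : Fin n → ℂ) (t : ℝ) => ¬ (0 < t ∧ t • x ∈ B)) m).1
      (.of_forall fun x => compl_mem_ae_iff.2 ((h x).measure_zero _))
  have : (ae (volume.restrict (Ioi (0 : ℝ)))).NeBot := ae_neBot.2 (by simp)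
  obtain ⟨t, h2, ht⟩ := ((ae_restrict_of_ae (s := Ioi (0 : ℝ)) h1).and
    (ae_restrict_mem measurableSet_Ioi)).exists
  have ht : 0 < t := ht
  have h3 : volume ((fun x : Fin n → ℂ => t • x) ⁻¹' B) = 0 :=
    compl_mem_ae_iff.1 (h2.mono fun x hx hx' => hx ⟨ht, hx'⟩)
  rw [Measure.addHaar_preimage_smul volume ht.ne', mul_eq_zero] at h3
  exact h3.resolve_left (by rw [ENNReal.ofReal_eq_zero, not_le]; positivity)

theorem shr_pz {n : ℕ} (x : Fin n → ℂ) (s : ℝ) :
    shr ⟨n, 0, x, ![], ![]⟩ s = ⟨n, 0, fun i => x i / s, ![], ![]⟩ := by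
  unfold shr
  congr
  exact Subsingleton.elim _ _

theorem dil_pz {n : ℕ} (x : Fin n → ℂ) (s : ℝ) :
    dil ⟨n, 0, x, ![], ![]⟩ s = ⟨n, 0, s • x, ![], ![]⟩ := by
  unfold dil
  congr
  exact Subsingleton.elim _ _

theorem ev_good {D : Set ℂ} (hD : IsOpen D) {p : Pts} (hp : Good D p) (hm : p.m = 0) :
    ∀ᶠ s in 𝓝 (1 : ℝ), 0 < s ∧ Good D (shr p s) := by
  have : ∀ᶠ s : ℝ in 𝓝 1, ∀ i, p.x i / s ∈ D :=
    eventually_all.2 fun i => ContinuousAt.eventually_mem (f := fun s : ℝ => p.x i / (s : ℂ))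
      (continuousAt_const.div Complex.continuous_ofReal.continuousAt (by simp))
      (hD.mem_nhds (by simpa using hp.2.1 i))
  filter_upwards [this, lt_mem_nhds (zero_lt_one' ℝ)] with s h1 h2
  exact ⟨h2, hp.1, h1, fun k => (Fin.cast hm k).elim0, (good_shr h2 hp).2.2.2⟩

theorem Dat.star_seq (h : Dat J lam β Zσ Zε V b) {D : Set ℂ} (hD : Star D) {C : Pts → ℝ}
    (hC : ∀ p, Good D p → p.m = 0 → Lim (crit J D b) p (C p)) {p : Pts} (hp : Good D p)
    (hm : p.m = 0) {u v : ℕ → ℝ} (u1 : Tendsto u atTop (𝓝 1)) (v1 : Tendsto v atTop (𝓝 1))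
    (u2 : ∀ k, u k < 1) (v2 : ∀ k, 1 < v k)
    (hu : Tendsto (fun k => C (shr p (u k)) - C p) atTop (𝓝 0))
    (hv : Tendsto (fun k => C (shr p (v k)) - C p) atTop (𝓝 0)) :
    Lim (inDom J lam V β D b) p (Zσ ^ p.n * C p) := by
  refine h.stable hm fun ε hε => ?_
  have e1 : mul 1 D = D := by ext z; simp [mul]
  have key : ∀ w : ℕ → ℝ, Tendsto w atTop (𝓝 1) →
      Tendsto (fun k => C (shr p (w k)) - C p) atTop (𝓝 0) → ∃ k, 0 < w k ∧
      Good (interior (mul (w k) D)) p ∧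
      ∀ᶠ a in 𝓝[>] (0 : ℝ), |corr a (crit J (mul (w k) D) b a) p - C p| ≤ ε := by
    intro w w1 w2
    have cf : ContinuousAt (fun s : ℝ => (s ^ (-(1 / 8) : ℝ)) ^ p.n * s⁻¹ ^ p.m) 1 :=
      ((Real.continuousAt_rpow_const _ _ (Or.inl one_ne_zero)).pow _).mul
        ((continuousAt_inv₀ one_ne_zero).pow _)
    have t := (cf.tendsto.comp w1).mul (tendsto_sub_nhds_zero_iff.1 w2)
    simp only [Real.one_rpow, one_pow, inv_one, one_mul] at t
    obtain ⟨k, k1, k2, k3⟩ := ((t.eventually (Metric.ball_mem_nhds _ hε)).and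
      (w1.eventually (ev_good hD.1 hp hm))).exists
    refine ⟨k, k2, ?_, ?_⟩
    · rw [mul, (hD.1.preimage (div_cont _)).interior_eq]
      exact good_mul k3
    · have := ((lim_mul h.hb k2 (hC _ k3 hm)).sub_const (C p)).abs
      exact (this.eventually (gt_mem_nhds k1)).mono fun a ha => ha.le
  obtain ⟨k, k1, k2, k3⟩ := key u u1 hu
  obtain ⟨l, l1, -, l3⟩ := key v v1 hv
  have i1 := hD.inside k1 (u2 k)
  have i2 := hD.inside one_pos (v2 l)
  rw [e1] at i1 i2
  exact ⟨_, _, i1, i2, k2, k3.and l3⟩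

theorem Dat.star_ae (h : Dat J lam β Zσ Zε V b) {D : Set ℂ} (hD : Star D) {C : Pts → ℝ}
    (hC : ∀ p, Good D p → p.m = 0 → Lim (crit J D b) p (C p)) (n : ℕ) :
    ∀ᵐ x : Fin n → ℂ, Good D ⟨n, 0, x, ![], ![]⟩ →
      Lim (inDom J lam V β D b) ⟨n, 0, x, ![], ![]⟩ (Zσ ^ n * C ⟨n, 0, x, ![], ![]⟩) := by
  have z0 := tendsto_one_div_add_atTop_nhds_zero_nat (𝕜 := ℝ)
  have zp : ∀ k : ℕ, (0 : ℝ) < 1 / (k + 1) := fun k => by positivity
  have z1 : Tendsto (fun k : ℕ => 1 / ((k : ℝ) + 1)) atTop (𝓝[>] 0) :=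
    tendsto_nhdsWithin_iff.2 ⟨z0, .of_forall zp⟩
  set L : Pts → ℝ := fun q =>
    limsup (fun k : ℕ => corr (1 / (k + 1)) (crit J D b (1 / (k + 1))) q) atTop with hL
  have eq : ∀ p, Good D p → p.m = 0 → L p = C p := fun p hp hm =>
    (Tendsto.comp (hC p hp hm) z1).limsup_eq
  have hC' : ∀ p, Good D p → p.m = 0 → Lim (crit J D b) p (L p) := fun p hp hm =>
    eq p hp hm ▸ hC p hp hm
  have me : Measurable fun x : Fin n → ℂ => L ⟨n, 0, x, ![], ![]⟩ := Measurable.limsup fun k => by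
    simp only [crit, inDom, corr_spin]
    exact ((measurable_of_countable fun y : Fin n → Site => gibbs J 0 (fun _ => 0) (Kc / J)
      (b.map fun η => η (1 / (k + 1))) (disc D (1 / (k + 1))) fun σ => ∏ i, sp (σ (y i))).comp
        (measurable_pi_lambda _ fun i =>
          (P144W.meas_fl _).comp (measurable_pi_apply i))).const_mul _
  have ms : ∀ w : ℕ → ℝ, MeasurableSet {x : Fin n → ℂ | Tendsto (fun k =>
      L (shr ⟨n, 0, x, ![], ![]⟩ (w k)) - L ⟨n, 0, x, ![], ![]⟩) atTop (𝓝 0)} := fun w => by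
    simp only [shr_pz]
    exact measurableSet_tendsto _ fun k => (me.comp (measurable_pi_lambda _ fun i =>
      (measurable_pi_apply i).div_const _)).sub me
  have mg : MeasurableSet {x : Fin n → ℂ | Good D ⟨n, 0, x, ![], ![]⟩} := by
    rcases n.eq_zero_or_pos with rfl | hn
    · exact Subsingleton.measurableSet
    have : {x : Fin n → ℂ | Good D ⟨n, 0, x, ![], ![]⟩} = (⋂ i, (fun x => x i) ⁻¹' D) ∩
        ⋂ i, ⋂ j, ⋂ _ : i ≠ j, {x | x i = x j}ᶜ := by
      ext x
      simp only [mem_inter_iff, mem_iInter, mem_preimage, mem_compl_iff, mem_ofPred_eq]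
      exact ⟨fun g => ⟨g.2.1, fun i j e k => e (Sum.inl_injective (g.2.2.2 k))⟩, fun g =>
        ⟨hn, g.1, fun k => k.elim0, (P144W.good_of hn (fun i j e => by_contra fun k =>
          g.2 i j k e) ![] ![]).2.2.2⟩⟩
    rw [this]
    exact (MeasurableSet.iInter fun i => measurable_pi_apply i hD.1.measurableSet).inter
      (.iInter fun i => .iInter fun j => .iInter fun _ => (measurableSet_eq_fun
        (measurable_pi_apply i) (measurable_pi_apply j)).compl)
  have u1 : Tendsto (fun k : ℕ => 1 - 1 / ((k : ℝ) + 1)) atTop (𝓝 1) := by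
    simpa only [sub_zero] using z0.const_sub 1
  have v1 : Tendsto (fun k : ℕ => 1 + 1 / ((k : ℝ) + 1)) atTop (𝓝 1) := by
    simpa only [add_zero] using z0.const_add 1
  have nl := null_of_rays (mg.diff ((ms fun k => 1 - 1 / (k + 1)).inter
    (ms fun k => 1 + 1 / (k + 1)))) fun x => by
      have cq : ∀ q : ℚ, {t : ℝ | (0 : ℝ) < q ∧ Good D ⟨n, 0, (q : ℝ) • x, ![], ![]⟩ ∧
          t / q ∈ {t ∈ Ioc (0 : ℝ) 1 | ¬ ContinuousAt
            (fun t => L (dil ⟨n, 0, (q : ℝ) • x, ![], ![]⟩ t)) t}}.Countable := fun q => by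
        by_cases k : (0 : ℝ) < q ∧ Good D ⟨n, 0, (q : ℝ) • x, ![], ![]⟩
        · refine ((h.star hD hC' k.2 rfl).2.image fun s => s * q).mono fun t ht => ?_
          exact ⟨_, ht.2.2, div_mul_cancel₀ _ k.1.ne'⟩
        · exact countable_empty.mono fun t ht => k ⟨ht.1, ht.2.1⟩
      refine (countable_iUnion cq).mono ?_
      rintro t ⟨ht, g, hn⟩
      obtain ⟨s, ⟨s0, s1⟩, s2⟩ := (((ev_good hD.1 g rfl).filter_mono
        (nhdsWithin_le_nhds (s := Iio 1))).and self_mem_nhdsWithin).exists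
      have s2 : s < 1 := s2
      obtain ⟨q, q1, q2⟩ := exists_rat_btwn (show t < t / s from (lt_div_iff₀ s0).2 (by nlinarith))
      have q0 := ht.trans q1
      have gq : Good D ⟨n, 0, (q : ℝ) • x, ![], ![]⟩ := by
        have r1 : q * s / t < 1 := by
          rw [div_lt_one ht]
          exact (lt_div_iff₀ s0).1 q2
        refine ⟨g.1, fun i => ?_, fun k => k.elim0, (P144W.good_of g.1 (fun i j e => ?_)
          ![] ![]).2.2.2⟩
        · have := hD.2.2 _ (by positivity) r1 _ (subset_closure (s1.2.1 i))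
          have e : ((q * s / t : ℝ) : ℂ) * ((t • x) i / s) = ((q : ℝ) • x) i := by
            have : (s : ℂ) ≠ 0 := by exact_mod_cast s0.ne'
            have : (t : ℂ) ≠ 0 := by exact_mod_cast ht.ne'
            simp only [Pi.smul_apply, Complex.real_smul]
            push_cast
            field_simp
          exact (congrArg (· ∈ D) e).mp this
        · refine Sum.inl_injective (g.2.2.2 (a₁ := .inl i) (a₂ := .inl j) ?_)
          exact congrArg (t • ·) (smul_right_injective ℂ q0.ne' e)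
      refine mem_iUnion.2 ⟨q, q0, gq, ⟨by positivity, (div_le_one q0).2 q1.le⟩, fun k => hn ?_⟩
      have key : ∀ w : ℕ → ℝ, Tendsto w atTop (𝓝 1) → Tendsto (fun k =>
          L (shr ⟨n, 0, t • x, ![], ![]⟩ (w k)) - L ⟨n, 0, t • x, ![], ![]⟩) atTop (𝓝 0) := by
        intro w hw
        have l : Tendsto (fun k => (w k)⁻¹ * (t / q)) atTop (𝓝 (t / q)) := by
          simpa only [inv_one, one_mul] using (hw.inv₀ one_ne_zero).mul_const (t / q)
        have := k.tendsto.comp l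
        simp only [Function.comp_def, dil_pz, smul_smul, mul_assoc,
          div_mul_cancel₀ _ q0.ne'] at this
        simpa only [shr_eq, dil_pz, smul_smul] using tendsto_sub_nhds_zero_iff.2 this
      exact ⟨key _ u1, key _ v1⟩
  filter_upwards [compl_mem_ae_iff.2 nl] with x hx g
  obtain ⟨a1, a2⟩ := not_not.1 fun k => hx ⟨g, k⟩
  rw [← eq _ g rfl]
  exact h.star_seq hD hC' g rfl u1 v1 (fun k => by linarith [zp k]) (fun k => by linarith [zp k])
    a1 a2

end Vale.Agent.P144N
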