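import Vale.Agent.P144D.Tame
import Mathlib.Geometry.Manifold.PartitionOfUnity
import Mathlib.Topology.MetricSpace.HausdorffDimension

/-!
Between a compact set and an open set there is a domain with continuously differentiable boundary.
-/

namespace Vale.Agent.P144N

open Set Vale.Agent.P144Z
open scoped Manifold ContDiff

theorem exists_C1 {K U : Set ℂ} (hK : IsCompact K) (hU : IsOpen U) (h : K ⊆ U) :
    ∃ Q, IsC1 Q ∧ K ⊆ Q ∧ Q ⊆ U := by
  obtain ⟨R, hR, hKR⟩ := hK.isBounded.subset_ball_lt 1 0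
  obtain ⟨f, f0, f1, f2⟩ := exists_contMDiffMap_zero_one_of_isClosed (n := 2) 𝓘(ℝ, ℂ)
    (hU.inter (Metric.isOpen_ball (x := (0 : ℂ)) (ε := R))).isClosed_compl hK.isClosed
    (disjoint_left.2 fun z hz hz' => hz ⟨h hz', hKR hz'⟩)
  have hf : ContDiff ℝ 2 f := f.contMDiff.contDiff
  obtain ⟨δ, hδ, hδR⟩ : ∃ δ : ℝ, 0 < δ ∧ δ * R = 1 / 8 := ⟨1 / (8 * R), by positivity, by field_simp⟩
  have hδ1 : δ ≤ 1 / 8 := by nlinarith
  set g : ℂ → ℝ := fun z => f z - δ ^ 2 * ‖z‖ ^ 2 with hg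
  have hg2 : ContDiff ℝ 2 g := hf.sub (contDiff_const.mul (contDiff_norm_sq ℝ))
  have hd : ContDiff ℝ 1 (fderiv ℝ g) := hg2.fderiv_right (m := 1) (by norm_num)
  have hΦ : ContDiff ℝ 1 fun z => (g z - fderiv ℝ g z z, fderiv ℝ g z) :=
    ((hg2.of_le (by norm_num)).sub (hd.clm_apply contDiff_id)).prodMk hd
  have hden := hΦ.dense_compl_range_of_finrank_lt_finrank (by
    rw [Module.finrank_prod, Module.finrank_self, ← (LinearMap.toContinuousLinearMap
      (𝕜 := ℝ) (E := ℂ) (F' := ℝ)).finrank_eq, Module.finrank_linearMap, Module.finrank_self]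
    omega)
  obtain ⟨⟨c, v⟩, hn, hcv⟩ := hden.exists_dist_lt ((1 / 2 : ℝ), (0 : ℂ →L[ℝ] ℝ)) hδ
  rw [Prod.dist_eq, max_lt_iff, Real.dist_eq, dist_comm, dist_zero_right, abs_lt] at hcv
  obtain ⟨⟨c1, c2⟩, hv⟩ := hcv
  have hvz : ∀ z, |v z| ≤ δ * ‖z‖ := fun z =>
    (v.le_opNorm z).trans (mul_le_mul_of_nonneg_right hv.le (norm_nonneg z))
  have out : ∀ z, 0 < g z - c - v z → z ∈ U ∩ Metric.ball 0 R := fun z hz => by
    by_contra hn
    have e : f z = 0 := f0 hn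
    have := (abs_le.1 (hvz z)).1
    simp only [hg, e] at hz
    nlinarith [sq_nonneg (δ * ‖z‖ - 1 / 2)]
  refine ⟨{z | 0 < g z - c - v z}, ⟨Metric.isBounded_ball.subset fun z hz => (out z hz).2,
    fun z => g z - c - v z, ((hg2.of_le (by norm_num)).sub contDiff_const).sub v.contDiff, rfl,
    fun z hz hz' => hn ⟨z, ?_⟩⟩, fun z hz => ?_, fun z hz => (out z hz).1⟩
  · have hD : HasFDerivAt (fun z => g z - c - v z) (fderiv ℝ g z - v) z :=
      (((hg2.differentiable (by norm_num)) z).hasFDerivAt.sub_const c).sub v.hasFDerivAt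
    have e : fderiv ℝ g z = v := sub_eq_zero.1 (hD.fderiv.symm.trans hz')
    simp only [e, Prod.mk.injEq, and_true]
    linarith
  · have e : f z = 1 := f1 hz
    have h1 := (abs_le.1 (hvz z)).2
    have h2 : δ * ‖z‖ ≤ 1 / 8 :=
      hδR ▸ mul_le_mul_of_nonneg_left (mem_ball_zero_iff.1 (hKR hz)).le hδ.le
    have h3 : 0 ≤ δ * ‖z‖ := by positivity
    simp only [mem_setOf_eq, hg, e]
    nlinarith

end Vale.Agent.P144N
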