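import Vale.Agent.P144D.Tame

/-!
Nested and star-shaped sets.
-/

namespace Vale.Agent.P144N

open Vale.Agent.P144

/-- `B` is bounded and its interior contains the closure of `A`. -/
def Inside (A B : Set ℂ) : Prop := Bornology.IsBounded B ∧ closure A ⊆ interior B

/-- Bounded open sets that are strictly star-shaped with respect to the origin. -/
def Star (D : Set ℂ) : Prop :=
  IsOpen D ∧ Bornology.IsBounded D ∧ ∀ t : ℝ, 0 < t → t < 1 → ∀ z ∈ closure D, t * z ∈ D

/-- The points multiplied by `t`. -/
def dil (p : Pts) (t : ℝ) : Pts := ⟨p.n, p.m, fun i => t * p.x i, fun k => t * p.y k, p.j⟩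

end Vale.Agent.P144N
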