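import Vale.Agent.P144Y.Main

/-!
Inner and outer lattice approximations whose complements are locally connected.
-/

namespace Vale.Agent.P144N

open Filter Topology Metric Vale.Agent.P144 Vale.Agent.P144Y Vale.Agent.P144Y.V
open Vale.Agent.P144.H170 (Pt pt nf ev_nf pt_fl_norm)
open Vale.Agent.P144Q.V (king fin_sd sd_le)
open Vale.Agent.P144S.V (Rn blk_le small0 hull fl_pt rn_of)
open Vale.Agent.P144Y.B (cn_mono kg_of_cn)
open Relation

variable {D : Set ℂ} {P Λ : ℝ → Finset Site}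

theorem near_conn' {r : ℝ}
    (hO : ∀ ε > (0 : ℝ), ∃ δ > (0 : ℝ), ∀ z w : ℂ, ‖z - w‖ ≤ r → ε ≤ infDist z D →
      ε ≤ infDist w D → JoinedIn {u | δ ≤ infDist u D} z w)
    (hP : ∀ ε > (0:ℝ), ∀ᶠ a in 𝓝[>] (0:ℝ), ∀ x ∈ P a, ∃ z ∈ D, ‖pt a x - z‖ ≤ ε)
    {ε : ℝ} (hε : 0 < ε) : ∀ᶠ a in 𝓝[>] (0:ℝ), ∀ x y : Site,
      ε ≤ infDist (pt a x) D → ε ≤ infDist (pt a y) D → ‖pt a x - pt a y‖ ≤ r →
        x ∉ hull (P a) ∧ Rn (hull (P a)) x y := by
  obtain ⟨δ, hδ, h⟩ := hO ε hε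
  filter_upwards [hP (δ / 4) (by positivity), small0 (s := δ / 8) (by positivity)]
    with a h2 ⟨h3, h4⟩ x y hx hy e
  have hQ : ∀ u : ℂ, δ ≤ infDist u D → ∀ x, ‖pt a x - u‖ ≤ 4 * a → x ∉ hull (P a) := by
    rintro u hu x hx ⟨y, hy, e1, e2⟩
    obtain ⟨z, hz, h5⟩ := h2 y hy
    have a1 := infDist_le_dist_of_mem (x := u) hz
    have a2 := norm_sub_le_norm_sub_add_norm_sub u (pt a x) z
    have a3 := norm_sub_le_norm_sub_add_norm_sub (pt a x) (pt a y) z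
    rw [norm_sub_rev u (pt a x)] at a2
    rw [dist_eq_norm] at a1
    linarith [king h3 (blk_le e1) (blk_le e2)]
  have hj := h _ _ e hx hy
  refine ⟨hQ _ hj.source_mem _ (by rw [sub_self, norm_zero]; positivity), ?_⟩
  obtain ⟨γ, hγ⟩ := hj
  have := rn_of h3 (isPreconnected_range γ.continuous)
    (fun u ⟨t, ht⟩ => hQ u (ht ▸ hγ t)) γ.source_mem_range γ.target_mem_range
  rwa [fl_pt h3, fl_pt h3] at this

theorem kg_out {Q : Finset Site} {v w : Site} (h : Kg Q v w) (hv : v ∉ Q) : w ∉ Q := by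
  induction h with
  | refl => exact hv
  | tail _ h2 _ => exact h2.1

theorem outer (hD : Std D) (hL : OutL D) (hΛ : Fam0 D Λ)
    (hP : ∀ ε > (0:ℝ), ∀ᶠ a in 𝓝[>] (0:ℝ), ∀ x ∈ P a, ∃ z ∈ D, ‖pt a x - z‖ ≤ ε)
    (hs : ∀ᶠ a in 𝓝[>] (0:ℝ), Λ a ⊆ P a) :
    ∃ P₂, FamP D P₂ ∧ ∀ᶠ a in 𝓝[>] (0:ℝ), P a ⊆ P₂ a := by
  obtain ⟨r, hr, hO⟩ := hL
  obtain ⟨κ, hκ, hκ1, r₀, hr₀, hF⟩ := P144Q.V.fat' hD.fat
  obtain ⟨s, s0, s1, s2⟩ : ∃ s > (0 : ℝ), s ≤ r₀ ∧ 9 * s ≤ r :=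
    ⟨min r₀ (r / 9), by positivity, min_le_left _ _, by linarith [min_le_right r₀ (r / 9)]⟩
  have k0 : κ * s ≤ s := mul_le_of_le_one_left s0.le hκ1
  have k1 : 0 < κ * s := by positivity
  set O : ℝ → Set Site := fun a => {x | κ * s / 2 ≤ infDist (pt a x) D} with hOd
  have deep : ∀ᶠ a in 𝓝[>] (0:ℝ), ∀ p ∉ D, ∃ o ∈ O a, ‖pt a o - p‖ ≤ 2 * s := by
    filter_upwards [small0 (s := κ * s / 4) (by positivity)] with a ⟨ha, h0⟩ p hp
    obtain ⟨w, c2, c3⟩ := hF p hp s s0 s1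
    have c4 := pt_fl_norm ha w
    refine ⟨fl a w, (le_infDist hD.ne).2 fun z hz => ?_, ?_⟩
    · by_contra hc
      refine c3 z ?_ hz
      have d1 := norm_sub_le_norm_sub_add_norm_sub z (pt a (fl a w)) w
      rw [dist_eq_norm, norm_sub_rev] at hc
      linarith [not_le.1 hc]
    · linarith [norm_sub_le_norm_sub_add_norm_sub (pt a (fl a w)) w p]
  have jn : ∀ ε > (0 : ℝ), ∀ᶠ a in 𝓝[>] (0:ℝ), ∀ x, Jn (P a) (O a) x ∨
      ∃ z ∈ D, ‖pt a x - z‖ ≤ ε := fun ε hε => by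
    filter_upwards [deep, near_conn' hO hP (ε := min ε (κ * s / 2)) (by positivity)]
      with a h1 h2 x
    by_cases hx : min ε (κ * s / 2) ≤ infDist (pt a x) D
    · obtain ⟨o, ho, d⟩ := h1 (pt a x) fun c => by
        rw [infDist_zero_of_mem c] at hx
        exact absurd hx (not_le.2 (by positivity))
      obtain ⟨e1, e2⟩ := h2 o x ((min_le_right _ _).trans ho) hx (by linarith)
      exact Or.inl ⟨o, ho, e1, e2⟩
    · obtain ⟨z, hz, h5⟩ := (infDist_lt_iff hD.ne).1 (not_le.1 hx)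
      rw [dist_eq_norm] at h5
      exact Or.inr ⟨z, hz, h5.le.trans (min_le_left _ _)⟩
  have fin : ∀ᶠ a in 𝓝[>] (0:ℝ), {x | ¬ Jn (P a) (O a) x}.Finite := by
    filter_upwards [jn _ (half_pos one_pos), small0 one_pos] with a h2 ⟨h3, _⟩
    refine (fin_sd ((0:ℂ).re / a, (0:ℂ).im / a) (2 / a)).subset fun x hx => ?_
    obtain ⟨z, hz, h4⟩ := (h2 x).resolve_left hx
    have a1 := mem_ball.1 (hD.small hz)
    rw [dist_eq_norm] at a1
    refine ((sd_le h3 zero_le_one 0 x).2 (by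
      linarith [norm_sub_le_norm_sub_add_norm_sub (pt a x) z 0])).trans_lt ?_
    gcongr
    norm_num
  have sub : ∀ᶠ a in 𝓝[>] (0:ℝ), P a ⊆ upp (P a) (O a) := fin.mono fun a h x hx =>
    (mem_upp h).2 fun ⟨o, _, ho', c⟩ => Rn.out c ho' ⟨x, hx, rfl, rfl⟩
  refine ⟨fun a => upp (P a) (O a), (famB (fun z hz => ?_) (fun ε hε => ?_) ?_
    fun a => upp_blk _ _).1, sub⟩
  · filter_upwards [hΛ.inn z hz, H170.ev_nf_of sub, H170.ev_nf_of hs] with kx h1 h2 h3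
      using h2 (h3 h1)
  · filter_upwards [fin, jn ε hε] with a h1 h2 x hx
    exact (h2 x).resolve_left ((mem_upp h1).1 hx)
  have h1 : {x : ℂ | s ≤ infDist x Dᶜ} ⊆ D := fun x hx => by
    by_contra hc
    have : s ≤ infDist x Dᶜ := hx
    rw [infDist_zero_of_mem hc] at this
    linarith
  have h2 : IsCompact {x : ℂ | s ≤ infDist x Dᶜ} :=
    isCompact_of_isClosed_isBounded (isClosed_le continuous_const (continuous_infDist_pt _))
      (isBounded_ball.subset (h1.trans hD.small))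
  have hne : Dᶜ.Nonempty := ⟨1, fun h' => by
    have := hD.small h'
    norm_num at this⟩
  obtain ⟨t, ht, hc⟩ := hΛ.kc
  refine ⟨t, ht, ?_⟩
  filter_upwards [hc, fin, deep, near_conn' hO hP (ε := κ * s / 2) (by positivity),
    hΛ.cpt h2 h1, small0 (s := s / 2) (by positivity), hs] with a b1 b2 b3 b4 b5 ⟨ha, b6⟩ b7
  have ex : ∀ v ∉ Λ a, ∃ d ∈ O a, ‖pt a d - pt a v‖ ≤ 3 * s := fun v hv => by
    obtain ⟨p, hp, c1⟩ := (infDist_lt_iff hne).1 (not_le.1 fun b => hv (b5 v b))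
    obtain ⟨d, hd, c2⟩ := b3 p hp
    rw [dist_eq_norm, norm_sub_rev] at c1
    exact ⟨d, hd, by linarith [norm_sub_le_norm_sub_add_norm_sub (pt a d) p (pt a v)]⟩
  have key : ∀ o ∈ O a, o ∉ Λ a → ∀ v, Kg (Λ a) o v → ∀ d ∈ O a, ‖pt a d - pt a v‖ ≤ 3 * s →
      Rn (hull (P a)) o d := by
    intro o ho ho' v hv
    induction hv with
    | refl =>
      intro d hd e
      rw [norm_sub_rev] at e
      exact (b4 o d ho hd (by linarith)).2
    | @tail v w a1 a2 ih =>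
      intro d hd e
      obtain ⟨d', hd', e'⟩ := ex v (kg_out a1 ho')
      have d0 := king ha (x := w) (y := v) a2.2.1 a2.2.2
      have d1 := norm_sub_le_norm_sub_add_norm_sub (pt a d') (pt a v) (pt a d)
      have d2 := norm_sub_le_norm_sub_add_norm_sub (pt a v) (pt a w) (pt a d)
      rw [norm_sub_rev (pt a w)] at d2
      exact ReflTransGen.trans (ih d' hd' e') (b4 d' d hd' hd (by linarith)).2
  intro x hx y hy e
  rw [mem_upp b2, not_not] at hx hy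
  obtain ⟨o, ho, ho', hx⟩ := hx
  obtain ⟨o₂, ho₂, ho₂', hy⟩ := hy
  have nP : ∀ u, u ∉ hull (P a) → u ∉ Λ a := fun u h c => h ⟨u, b7 c, rfl, rfl⟩
  have c1 : Kg (Λ a) o o₂ := ReflTransGen.trans (kg_of_cn (cn_mono b7 (cn_hull hx)))
    (ReflTransGen.trans (b1 x (nP x (Rn.out hx ho')) y (nP y (Rn.out hy ho₂')) e)
      (kg_of_cn (cn_mono b7 (cn_hull (Rn.rev hy ho₂')))))
  have c2 := key o ho (nP o ho') o₂ c1 o₂ ho₂ (by rw [sub_self, norm_zero]; positivity)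
  exact ReflTransGen.trans
    (Rn.rev (rn_upp b2 ho ho' hx) fun c => (mem_upp b2).1 c ⟨o, ho, ho', .refl⟩)
    (rn_upp b2 ho ho' (ReflTransGen.trans c2 hy))

theorem box_conn {Q : Finset Site} {v : Site} {k : ℤ}
    (h : ∀ u : Site, |v.1 - u.1| ≤ k → |v.2 - u.2| ≤ k → u ∉ Q) (n : ℕ) : ∀ x : Site,
    |v.1 - x.1| ≤ k → |v.2 - x.2| ≤ k → |v.1 - x.1| + |v.2 - x.2| ≤ n → Cn Q x v := by
  induction n with
  | zero =>
    intro x _ _ e
    have := abs_nonneg (v.1 - x.1)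
    have := abs_nonneg (v.2 - x.2)
    have : x = v := Prod.ext (by have := abs_eq_zero.1 (show |v.1 - x.1| = 0 by omega); omega)
      (by have := abs_eq_zero.1 (show |v.2 - x.2| = 0 by omega); omega)
    exact this ▸ .refl
  | succ n ih =>
    intro x e1 e2 e
    have st : ∀ y : Site, |x.1 - y.1| + |x.2 - y.2| = 1 → |v.1 - y.1| ≤ k → |v.2 - y.2| ≤ k →
        |v.1 - y.1| + |v.2 - y.2| ≤ n → Cn Q x v := fun y a1 a2 a3 a4 =>
      ReflTransGen.head ⟨h y a2 a3, a1⟩ (ih y a2 a3 a4)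
    simp only [Int.abs_eq_natAbs] at e1 e2 e st
    rcases lt_trichotomy x.1 v.1 with c | c | c
    · exact st (x.1 + 1, x.2) (by dsimp only; omega) (by dsimp only; omega) (by dsimp only; omega)
        (by dsimp only; omega)
    · rcases lt_trichotomy x.2 v.2 with d | d | d
      · exact st (x.1, x.2 + 1) (by dsimp only; omega) (by dsimp only; omega)
          (by dsimp only; omega) (by dsimp only; omega)
      · exact (Prod.ext c d : x = v) ▸ .refl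
      · exact st (x.1, x.2 - 1) (by dsimp only; omega) (by dsimp only; omega)
          (by dsimp only; omega) (by dsimp only; omega)
    · exact st (x.1 - 1, x.2) (by dsimp only; omega) (by dsimp only; omega) (by dsimp only; omega)
        (by dsimp only; omega)

open Classical in
/-- The sites all whose neighbours at distance `k` are in `Q`. -/
noncomputable def core (Q : Finset Site) (k : ℕ) : Finset Site :=
  Q.filter fun x => ∀ y : Site, |y.1 - x.1| ≤ k → |y.2 - x.2| ≤ k → y ∈ Q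

theorem mem_core {Q : Finset Site} {k : ℕ} {x : Site} :
    x ∈ core Q k ↔ ∀ y : Site, |y.1 - x.1| ≤ k → |y.2 - x.2| ≤ k → y ∈ Q := by
  classical
  rw [core, Finset.mem_filter]
  exact ⟨fun h => h.2, fun h => ⟨h x (by simp) (by simp), h⟩⟩

theorem core_sub (Q : Finset Site) (k : ℕ) : core Q k ⊆ Q := fun x hx =>
  mem_core.1 hx x (by simp) (by simp)

theorem core_out {Q : Finset Site} {k : ℕ} {a : ℝ} (ha : 0 < a) {x : Site} (hx : x ∉ core Q k) :
    ∃ v ∉ Q, Cn (core Q k) x v ∧ Cn (core Q k) v x ∧ ‖pt a v - pt a x‖ ≤ 2 * (k * a) := by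
  have h1 := mt mem_core.2 hx
  push Not at h1
  obtain ⟨v, e1, e2, hv⟩ := h1
  have c : Cn (core Q k) x v := box_conn (k := k) (fun u a1 a2 hu => hv (mem_core.1 hu v a1 a2))
    (k + k) x e1 e2 (by push_cast; omega)
  refine ⟨v, hv, c, Rn.rev (Q := (core Q k : Set Site)) c hx, ?_⟩
  have := pt_sub_le ha (m := k) (x := x) (y := v) e1 e2
  linarith

theorem inner (hΛ : Fam0 D Λ) {k : ℝ → ℕ} (hk : Tendsto (fun a => k a * a) (𝓝[>] 0) (𝓝 (0:ℝ))) :
    Fam0 D (fun a => core (Λ a) (k a)) ∧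
      (LC (𝓝[>] 0) (fun a => a) Λ → LC (𝓝[>] 0) (fun a => a) fun a => core (Λ a) (k a)) := by
  have sm : ∀ r > (0:ℝ), ∀ᶠ a in 𝓝[>] (0:ℝ), 0 < a ∧ k a * a < r / 8 := fun r hr =>
    (eventually_mem_nhdsWithin).and (hk.eventually (gt_mem_nhds (by positivity)))
  have tri : ∀ {a r : ℝ} {x y v w : Site}, ‖pt a v - pt a x‖ ≤ 2 * (k a * a) →
      ‖pt a w - pt a y‖ ≤ 2 * (k a * a) → ‖pt a x - pt a y‖ ≤ r / 2 → k a * a < r / 8 →
      ‖pt a v - pt a w‖ ≤ r := fun {a r x y v w} d1 d2 d3 d4 => by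
    have d5 := norm_sub_le_norm_sub_add_norm_sub (pt a v) (pt a x) (pt a w)
    have d6 := norm_sub_le_norm_sub_add_norm_sub (pt a x) (pt a y) (pt a w)
    rw [norm_sub_rev (pt a y)] at d6
    linarith
  refine ⟨⟨fun z hz => ?_, fun ε hε => (hΛ.sub ε hε).mono fun a h x hx => h x (core_sub _ _ hx),
    ?_⟩, ?_⟩
  · obtain ⟨r, hr, h⟩ := (ev_nf (P := fun a x => x ∈ Λ a)).1 (hΛ.inn z hz)
    refine (ev_nf (P := fun a x => x ∈ core (Λ a) (k a))).2 ⟨r / 2, by positivity, ?_⟩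
    filter_upwards [h, sm r hr] with a h ⟨ha, h0⟩ x hx
    refine mem_core.2 fun y e1 e2 => h y ?_
    have := pt_sub_le ha (m := k a) (x := x) (y := y) e1 e2
    linarith [norm_sub_le_norm_sub_add_norm_sub (pt a y) (pt a x) z]
  · obtain ⟨r, hr, h⟩ := hΛ.kc
    refine ⟨r / 2, by positivity, ?_⟩
    filter_upwards [h, sm r hr] with a h ⟨ha, h0⟩ x hx y hy e
    obtain ⟨v, hv, c1, -, d1⟩ := core_out ha hx
    obtain ⟨w, hw, -, c2, d2⟩ := core_out ha hy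
    exact ReflTransGen.trans (kg_of_cn c1) (ReflTransGen.trans (ReflTransGen.mono
      (fun _ _ e => ⟨fun c => e.1 (core_sub _ _ c), e.2⟩) _ _ (h v hv w hw (tri d1 d2 e h0)))
      (kg_of_cn c2))
  · rintro ⟨r, hr, h⟩
    refine ⟨r / 2, by positivity, ?_⟩
    filter_upwards [h, sm r hr] with a h ⟨ha, h0⟩ x hx y hy e
    obtain ⟨v, hv, c1, -, d1⟩ := core_out ha hx
    obtain ⟨w, hw, -, c2, d2⟩ := core_out ha hy
    exact ReflTransGen.trans c1 (ReflTransGen.trans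
      (cn_mono (core_sub _ _) (h v hv w hw (tri d1 d2 e h0))) c2)

end Vale.Agent.P144N
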