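import Vale.Agent.P144M56.Dom
import Vale.Agent.P144M13.Dom

/-!
The smeared spin field in a domain from the pointwise convergence of the spin correlations.
-/

set_option linter.all false

namespace Vale.Agent.P144N

open Filter Topology MeasureTheory Vale.Agent.P144 Vale.Agent.P144Z Vale.Agent.P144F58
  Vale.Agent.P144W Vale.Agent.P144M56

/-- The field `S_a` is a distribution on `D`, and its law is asymptotically that of `Z` times the
field in `E₀`. -/
def DistDiff (D : TopologicalSpace.Opens ℂ) (E₀ E : Fam) (Z : ℝ) : Prop :=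
  ∃ X : ℝ → Config → Distribution D ℝ ⊤,
    (∀ a σ (f : TestFunction D ℝ ⊤), X a σ f = smear a f σ) ∧
    ∀ F : BoundedContinuousFunction (Distribution D ℝ ⊤) ℝ,
      Tendsto (fun a => E a (fun σ => F (X a σ)) - E₀ a fun σ => F (Z • X a σ)) (𝓝[>] 0) (𝓝 0)

variable {J lam β : ℝ} {V : Finset Site → ℝ}

theorem mom_pt {Zσ Zε Z : ℝ} {μ μ₀ : Measure Config} {C : Pts → ℝ} {D : Set ℂ}
    (hJ : 0 < J) (hV : IsPotential V) (hc : ∀ A, 0 ≤ U1.cf J lam V A) (hβ : 0 ≤ β)
    (hμ : IsTorusState J lam V β μ) (h₀ : IsPlaneState J 0 (fun _ => 0) (Kc / J) μ₀)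
    (hD : LocDiff Set.univ (famOf μ₀) (famOf μ) Zσ Zε) (hZ : 0 < Zσ)
    (hL0 : ∀ p, Good Set.univ p → ∀ E₀, PlaneFam J 0 (fun _ => 0) (Kc / J) E₀ → Lim E₀ p (C p))
    (hL : ∀ p, Good Set.univ p → Lim (famOf μ) p (Zσ ^ p.n * Zε ^ p.m * C p))
    (hC : ∀ p, Good Set.univ p → p.m = 0 → Even p.n → 0 < C p) (hK : 0 ≤ Kc / J)
    (ho : IsOpen D) (hb : Bornology.IsBounded D) (hZ' : 0 ≤ Z)
    (h : ∀ p, Good D p → p.m = 0 → Tendsto (fun a => corr a (inDom J lam V β D none a) p -
      Z ^ p.n * corr a (crit J D none a) p) (𝓝[>] 0) (𝓝 0)) :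
    MomDiff D (crit J D none) (inDom J lam V β D none) Z := by
  intro n f hf
  obtain ⟨H, η, e1⟩ : ∃ (H : ℝ → Config → ℝ) (η : Config), ∀ a,
      inDom J lam V β D none a = expect β (H a) (disc D a) η := ⟨_, _, fun _ => rfl⟩
  obtain ⟨H₀, η₀, e0⟩ : ∃ (H : ℝ → Config → ℝ) (η : Config), ∀ a,
      crit J D none a = expect (Kc / J) (H a) (disc D a) η := ⟨_, _, fun _ => rfl⟩
  rcases n.eq_zero_or_pos with rfl | hn
  · simp only [e1, e0, Finset.univ_eq_empty, Finset.prod_empty, expect_one, sub_self]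
    exact tendsto_const_nhds
  have hT := fun i => (hf i).1
  have hA := fun i => test_abs (hT i)
  have hμ₀ := U1.zero_state hJ h₀
  have F1 := sepm hJ hμ (fam_self h₀) hD
  have F0 := sepm hJ hμ₀ (fam_self h₀) (loc_self μ₀)
  have M1 := spin_mom hJ hV hμ (fam_self h₀) hD hZ hL hC n hn _ hA
  have M0 := spin_mom0 hJ hL0 hC μ₀ h₀ n hn _ hA
  have L0 : ∀ p, Good Set.univ p → Lim (famOf μ₀) p ((1 : ℝ) ^ p.n * (1 : ℝ) ^ p.m * C p) :=
    fun p hp => by simpa only [one_pow, one_mul] using hL0 p hp _ (fam_self h₀)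
  have hn0 : 0 ≤ Z ^ n := pow_nonneg hZ' n
  have P := pratt (ν := (volume : Measure (Fin n → ℂ))) (l := 𝓝[>] (0 : ℝ))
    (g := fun a x => (∏ i, f i (x i)) * (inDom J lam V β D none a fun σ => ∏ i, ph a (x i) σ) -
      Z ^ n * ((∏ i, f i (x i)) * crit J D none a fun σ => ∏ i, ph a (x i) σ))
    (h := fun a x => (∏ i, |f i (x i)|) * cr μ ph a x +
      Z ^ n * ((∏ i, |f i (x i)|) * cr μ₀ ph a x))
    (h₀ := fun x => Zσ ^ n * ((∏ i, |f i (x i)|) * C ⟨n, 0, x, ![], ![]⟩) +
      Z ^ n * ((∏ i, |f i (x i)|) * C ⟨n, 0, x, ![], ![]⟩))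
    (Eventually.of_forall fun a => by
      simp only [e1, e0]
      exact (fub_expect _ _ _ _ a hT).1.sub ((fub_expect _ _ _ _ a hT).1.const_mul _))
    (eventually_mem_nhdsWithin.mono fun a ha =>
      (fub_test F1 ha hA).1.add ((fub_test F0 ha hA).1.const_mul _))
    ((M1.1.const_mul _).add (M1.1.const_mul _))
    (by
      filter_upwards [dom_bd hV hc hβ hμ ho hb fun i => (hf i).2,
        dom_bd U1.pot_zero (cf_zero hJ) hK hμ₀ ho hb fun i => (hf i).2] with a h1 h2 x
      refine (abs_sub _ _).trans (add_le_add (h1 x) ?_)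
      rw [abs_mul, abs_of_nonneg hn0]
      exact mul_le_mul_of_nonneg_left (h2 x) hn0)
    ((Cv.ae_inj n).mono fun x hx => by
      by_cases h0 : ∃ i, f i (x i) = 0
      · obtain ⟨i, hi⟩ := h0
        simp only [Finset.prod_eq_zero (f := fun i => f i (x i)) (Finset.mem_univ i) hi, zero_mul,
          mul_zero, sub_self]
        exact tendsto_const_nhds
      have hg : Good D ⟨n, 0, x, ![], ![]⟩ := ⟨hn, fun i => (hf i).2 (subset_tsupport _
        fun e => h0 ⟨i, e⟩), fun k => k.elim0, (good_of hn hx ![] ![]).2.2.2⟩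
      have t := (h _ hg rfl).const_mul (∏ i, f i (x i))
      simp only [corr, Finset.univ_eq_empty, Finset.prod_empty, mul_one, pow_zero, mul_zero] at t
      refine t.congr fun a => ?_
      simp only [ph]
      ring)
    ((Cv.ae_inj n).mono fun x hx => by
      have t1 := (lim_cr hV hμ hZ.le hC hL hn ![] ![] x hx).2.const_mul (∏ i, |f i (x i)|)
      have t0 := ((lim_cr U1.pot_zero hμ₀ zero_le_one hC L0 hn ![] ![] x hx).2.const_mul
        (∏ i, |f i (x i)|)).const_mul (Z ^ n)
      simp only [one_pow, one_mul] at t0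
      rw [mul_left_comm] at t1
      exact t1.add t0)
    (by
      rw [integral_add (M1.1.const_mul _) (M1.1.const_mul _), integral_const_mul,
        integral_const_mul]
      have t0 := M0.2.const_mul (Z ^ n)
      simp only [one_pow, one_mul] at t0
      refine (M1.2.add t0).congr' (eventually_mem_nhdsWithin.mono fun a ha => ?_)
      simp only
      rw [integral_add (fub_test F1 ha hA).1 ((fub_test F0 ha hA).1.const_mul _),
        integral_const_mul, (fub_test F1 ha hA).2, (fub_test F0 ha hA).2])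
  refine P.congr fun a => ?_
  simp only [e1, e0, Finset.prod_mul_distrib, Finset.prod_const, Finset.card_univ,
    Fintype.card_fin, expect_mul]
  rw [integral_sub (fub_expect _ _ _ _ a hT).1 ((fub_expect _ _ _ _ a hT).1.const_mul _),
    integral_const_mul, (fub_expect _ _ _ _ a hT).2, (fub_expect _ _ _ _ a hT).2]

end Vale.Agent.P144N
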