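import Vale.Agent.P144D.U.Gib

/-!
Griffiths inequalities for ferromagnetic multispin couplings: the spin correlations are monotone
in the volume.
-/

namespace Vale.Agent.P144N

open Finset hiding expect ext
open Vale.Agent.P144 Vale.Agent.P144Z

def ml (σ ρ : Config) : Config := fun x => σ x == ρ x

theorem sp_ml (σ ρ : Config) (x : Site) : sp (ml σ ρ x) = sp (σ x) * sp (ρ x) := by
  unfold ml sp
  cases σ x <;> cases ρ x <;> simp

theorem ml_ml (σ ρ : Config) : ml (ml σ ρ) ρ = σ := by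
  funext x
  unfold ml
  cases σ x <;> cases ρ x <;> simp

def Ch (χ : Config → ℝ) : Prop :=
  (∀ σ ρ, χ (ml σ ρ) = χ σ * χ ρ) ∧ ∀ σ, χ σ = 1 ∨ χ σ = -1

theorem Ch.mul {χ ψ : Config → ℝ} (h : Ch χ) (k : Ch ψ) : Ch fun σ => χ σ * ψ σ :=
  ⟨fun σ ρ => by simp only [h.1, k.1]; ring, fun σ => by
    rcases h.2 σ with a | a <;> rcases k.2 σ with b | b <;> simp [a, b]⟩

theorem ch_prod {ι : Type} (s : Finset ι) (x : ι → Site) : Ch fun σ => ∏ i ∈ s, sp (σ (x i)) := by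
  classical
  induction s using Finset.induction_on with
  | empty => exact ⟨by simp, by simp⟩
  | insert a s ha ih =>
    simp only [prod_insert ha]
    refine Ch.mul ⟨fun σ ρ => sp_ml σ ρ _, fun σ => ?_⟩ ih
    show sp (σ (x a)) = 1 ∨ sp (σ (x a)) = -1
    cases σ (x a) <;> simp [sp]

open Classical in
noncomputable def cfg (Λ : Finset Site) : Finset Config :=
  Λ.powerset.image (ext Λ fun _ => true)

theorem mem_cfg {Λ : Finset Site} {σ : Config} : σ ∈ cfg Λ ↔ ∀ x ∉ Λ, σ x = true := by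
  classical
  unfold cfg
  rw [mem_image]
  constructor
  · rintro ⟨T, -, rfl⟩ x hx
    simp [ext, hx]
  · intro h
    refine ⟨Λ.filter fun x => σ x = true, mem_powerset.2 (filter_subset _ _), ?_⟩
    funext x
    by_cases hx : x ∈ Λ
    · simp [ext, hx]
    · simp [ext, hx, h x hx]

theorem sum_cfg (Λ : Finset Site) (F : Config → ℝ) :
    ∑ T ∈ Λ.powerset, F (ext Λ (fun _ => true) T) = ∑ σ ∈ cfg Λ, F σ := by
  classical
  unfold cfg
  rw [sum_image]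
  intro T hT S hS h
  have hT := mem_powerset.1 (mem_coe.1 hT)
  have hS := mem_powerset.1 (mem_coe.1 hS)
  refine Finset.ext fun x => ?_
  have := congrFun h x
  by_cases hx : x ∈ Λ
  · simpa [ext, hx] using this
  · exact ⟨fun h => absurd (hT h) hx, fun h => absurd (hS h) hx⟩

theorem shift {Λ : Finset Site} {ρ : Config} (hρ : ρ ∈ cfg Λ) (F : Config → ℝ) :
    ∑ σ ∈ cfg Λ, F σ = ∑ σ ∈ cfg Λ, F (ml σ ρ) := by
  have k : ∀ σ ∈ cfg Λ, ml σ ρ ∈ cfg Λ := fun σ hσ => mem_cfg.2 fun x hx => by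
    simp [ml, mem_cfg.1 hσ x hx, mem_cfg.1 hρ x hx]
  exact sum_nbij' (fun σ => ml σ ρ) (fun σ => ml σ ρ) k k (fun σ _ => ml_ml σ ρ)
    (fun σ _ => ml_ml σ ρ) fun σ _ => by rw [ml_ml]

theorem sum_ch (Λ : Finset Site) {χ : Config → ℝ} (h : Ch χ) : 0 ≤ ∑ σ ∈ cfg Λ, χ σ := by
  by_cases k : ∀ σ ∈ cfg Λ, χ σ = 1
  · exact sum_nonneg fun σ hσ => by rw [k σ hσ]; exact zero_le_one
  · push Not at k
    obtain ⟨ρ, hρ, k⟩ := k
    have := shift hρ χ
    simp only [h.1, (h.2 ρ).resolve_left k, mul_neg, mul_one, sum_neg_distrib] at this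
    linarith

theorem gks1 {ι : Type} (Λ : Finset Site) (s : Finset ι) (c : ι → ℝ) (m : ι → Config → ℝ)
    (hm : ∀ i, Ch (m i)) (hc : ∀ i ∈ s, 0 ≤ c i ∨ ∀ σ ∈ cfg Λ, m i σ = 1) :
    ∀ χ, Ch χ → 0 ≤ ∑ σ ∈ cfg Λ, χ σ * Real.exp (∑ i ∈ s, c i * m i σ) := by
  classical
  induction s using Finset.induction_on with
  | empty => intro χ h; simpa using sum_ch Λ h
  | insert a s ha ih =>
    intro χ h
    replace ih := ih fun i hi => hc i (mem_insert_of_mem hi)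
    simp only [sum_insert ha, Real.exp_add]
    rcases hc a (mem_insert_self _ _) with k | k
    · have e : ∀ σ, Real.exp (c a * m a σ) = Real.cosh (c a) + Real.sinh (c a) * m a σ := by
        intro σ
        rcases (hm a).2 σ with e | e <;> rw [e]
        · simp
        · rw [mul_neg, mul_one, mul_neg, mul_one, ← sub_eq_add_neg, Real.cosh_sub_sinh]
      have := add_nonneg (mul_nonneg (Real.cosh_pos (c a)).le (ih χ h))
        (mul_nonneg (Real.sinh_nonneg_iff.2 k) (ih _ (h.mul (hm a))))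
      refine this.trans_eq ?_
      rw [mul_sum, mul_sum, ← sum_add_distrib]
      exact sum_congr rfl fun σ _ => by rw [e]; ring
    · refine (mul_nonneg (Real.exp_pos (c a)).le (ih χ h)).trans_eq ?_
      rw [mul_sum]
      exact sum_congr rfl fun σ hσ => by rw [k σ hσ]; ring

theorem gin {ι : Type} (Λ₁ Λ₂ : Finset Site) (s : Finset ι) (k₁ k₂ : ι → ℝ)
    (m : ι → Config → ℝ) (hm : ∀ i, Ch (m i)) (r : Config → Config)
    (hr : ∀ σ ∈ cfg Λ₁, r σ ∈ cfg Λ₂) {χ : Config → ℝ} (h : Ch χ)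
    (hχ : ∀ σ ∈ cfg Λ₁, χ (r σ) = χ σ)
    (hk : ∀ i ∈ s, ∀ σ ∈ cfg Λ₁, k₂ i * m i (r σ) = k₂ i * m i σ)
    (hle : ∀ i ∈ s, 0 ≤ k₂ i ∧ k₂ i ≤ k₁ i ∨ ∀ σ ∈ cfg Λ₁, m i σ = 1) :
    (∑ σ ∈ cfg Λ₂, χ σ * Real.exp (∑ i ∈ s, k₂ i * m i σ)) /
        (∑ σ ∈ cfg Λ₂, Real.exp (∑ i ∈ s, k₂ i * m i σ)) ≤
      (∑ σ ∈ cfg Λ₁, χ σ * Real.exp (∑ i ∈ s, k₁ i * m i σ)) /
        ∑ σ ∈ cfg Λ₁, Real.exp (∑ i ∈ s, k₁ i * m i σ) := by
  have ne : ∀ Λ, (cfg Λ).Nonempty := fun Λ => ⟨fun _ => true, mem_cfg.2 fun _ _ => rfl⟩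
  rw [div_le_div_iff₀ (sum_pos (fun _ _ => Real.exp_pos _) (ne _))
    (sum_pos (fun _ _ => Real.exp_pos _) (ne _)), mul_comm, sum_mul_sum, sum_mul_sum,
    ← sub_nonneg, ← sum_sub_distrib]
  have e : ∀ σ ∈ cfg Λ₁, (∑ τ ∈ cfg Λ₂, χ σ * Real.exp (∑ i ∈ s, k₁ i * m i σ) *
      Real.exp (∑ i ∈ s, k₂ i * m i τ)) - ∑ τ ∈ cfg Λ₂, Real.exp (∑ i ∈ s, k₁ i * m i σ) *
      (χ τ * Real.exp (∑ i ∈ s, k₂ i * m i τ)) = ∑ ρ ∈ cfg Λ₂, (1 - χ ρ) *
      (χ σ * Real.exp (∑ i ∈ s, (k₁ i + k₂ i * m i ρ) * m i σ)) := by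
    intro σ hσ
    rw [← sum_sub_distrib, shift (hr σ hσ)]
    refine sum_congr rfl fun ρ _ => ?_
    have e1 : ∑ i ∈ s, (k₁ i + k₂ i * m i ρ) * m i σ =
        ∑ i ∈ s, k₁ i * m i σ + ∑ i ∈ s, k₂ i * m i (ml ρ (r σ)) := by
      rw [← sum_add_distrib]
      refine sum_congr rfl fun i hi => ?_
      rw [(hm i).1]
      linear_combination (-m i ρ) * hk i hi σ hσ
    rw [e1, Real.exp_add, h.1, hχ σ hσ]
    ring
  rw [sum_congr rfl e, sum_comm]
  refine sum_nonneg fun ρ _ => ?_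
  rw [← mul_sum]
  refine mul_nonneg (by rcases h.2 ρ with e | e <;> rw [e] <;> norm_num)
    (gks1 Λ₁ s _ m hm (fun i hi => (hle i hi).imp_left fun k => ?_) χ h)
  rcases (hm i).2 ρ with e | e <;> rw [e] <;> linarith [k.1, k.2]

variable {J lam β : ℝ} {V : Finset Site → ℝ}

open Classical in
theorem exp_eq (hV : IsPotential V) (P : Finset Site → Prop) (Λ Λ' : Finset Site)
    (hP : ∀ A, A.Nonempty → P A → (A ∩ Λ').Nonempty) (F : Config → ℝ) :
    P144.expect β (energy J lam V P) Λ (fun _ => true) F =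
      (∑ σ ∈ cfg Λ, F σ * Real.exp (∑ i ∈ U1.firsts V Λ' ×ˢ U1.shapes V,
        (if P (U1.sh i.1 i.2) then β * U1.cf J lam V i.2 else 0) *
          ∏ y ∈ i.2, sp (σ (y + i.1)))) /
      ∑ σ ∈ cfg Λ, Real.exp (∑ i ∈ U1.firsts V Λ' ×ˢ U1.shapes V,
        (if P (U1.sh i.1 i.2) then β * U1.cf J lam V i.2 else 0) *
          ∏ y ∈ i.2, sp (σ (y + i.1))) := by
  have e : ∀ σ, -β * energy J lam V P σ = ∑ i ∈ U1.firsts V Λ' ×ˢ U1.shapes V,
      (if P (U1.sh i.1 i.2) then β * U1.cf J lam V i.2 else 0) *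
        ∏ y ∈ i.2, sp (σ (y + i.1)) := by
    intro σ
    rw [U1.energy_eq hV J lam P (U1.firsts V Λ'), neg_mul_neg, sum_product, mul_sum]
    · refine sum_congr rfl fun x _ => ?_
      rw [mul_sum]
      refine sum_congr rfl fun A _ => ?_
      split_ifs
      · ring
      · simp
    · intro x A hA h
      obtain ⟨z, hz⟩ := (((U1.mem_shapes hV).1 hA).2).nonempty hV
      obtain ⟨y, hy, h⟩ := U1.meets_iff.1 (hP _ ⟨z + x, U1.mem_sh.2 (by simpa using hz)⟩ h)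
      exact mem_image.2 ⟨(y + x, y), mem_product.2 ⟨h, U1.mem_hull hA hy⟩, by simp⟩
  unfold P144.expect
  rw [sum_cfg Λ fun σ => F σ * Real.exp (-β * energy J lam V P σ),
    sum_cfg Λ fun σ => Real.exp (-β * energy J lam V P σ)]
  simp only [e]

theorem mono_free (hV : IsPotential V) (hβ : 0 ≤ β) (hf : ∀ A, 0 ≤ U1.cf J lam V A)
    {Λ Λ' : Finset Site} (h : Λ ⊆ Λ') {n : ℕ} {x : Fin n → Site} (hx : ∀ i, x i ∈ Λ) :
    gibbs J lam V β none Λ (fun σ => ∏ i, sp (σ (x i))) ≤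
      gibbs J lam V β none Λ' fun σ => ∏ i, sp (σ (x i)) := by
  classical
  have k : ∀ L ⊆ Λ', ∀ A : Finset Site, A.Nonempty → A ⊆ L → (A ∩ Λ').Nonempty :=
    fun L hL A ⟨z, hz⟩ hA => ⟨z, mem_inter.2 ⟨hz, hL (hA hz)⟩⟩
  unfold gibbs
  simp only
  rw [exp_eq hV _ Λ Λ' (k Λ h), exp_eq hV _ Λ' Λ' (k Λ' subset_rfl)]
  refine gin Λ' Λ _ _ _ _ (fun i => ch_prod _ _) (fun σ y => if y ∈ Λ then σ y else true)
    (fun σ _ => mem_cfg.2 fun y hy => if_neg hy) (ch_prod _ _)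
    (fun σ _ => prod_congr rfl fun i _ => by simp only [if_pos (hx i)]) (fun i _ σ _ => ?_)
    fun i _ => Or.inl ?_
  · split_ifs with hi
    · congr 1
      exact prod_congr rfl fun y hy => by
        simp only [if_pos (hi (U1.mem_sh.2 (by simpa using hy)) : y + i.1 ∈ Λ)]
    · simp
  · have := mul_nonneg hβ (hf i.2)
    by_cases hi : U1.sh i.1 i.2 ⊆ Λ
    · simp only [if_pos hi, if_pos (hi.trans h)]
      exact ⟨this, le_rfl⟩
    · simp only [if_neg hi]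
      exact ⟨le_rfl, by split_ifs <;> linarith⟩

theorem mono_plus (hV : IsPotential V) (hβ : 0 ≤ β) (hf : ∀ A, 0 ≤ U1.cf J lam V A)
    {Λ Λ' : Finset Site} (h : Λ ⊆ Λ') {n : ℕ} (x : Fin n → Site) :
    gibbs J lam V β (some fun _ => true) Λ' (fun σ => ∏ i, sp (σ (x i))) ≤
      gibbs J lam V β (some fun _ => true) Λ fun σ => ∏ i, sp (σ (x i)) := by
  classical
  unfold gibbs
  simp only
  rw [exp_eq hV _ Λ Λ' fun A _ hA => hA.mono (inter_subset_inter_left h),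
    exp_eq hV _ Λ' Λ' fun A _ hA => hA]
  refine gin Λ Λ' _ _ _ _ (fun i => ch_prod _ _) id
    (fun σ hσ => mem_cfg.2 fun y hy => mem_cfg.1 hσ y fun k => hy (h k)) (ch_prod _ _)
    (fun σ _ => rfl) (fun i _ σ _ => rfl) fun i _ => ?_
  have := mul_nonneg hβ (hf i.2)
  by_cases hi : (U1.sh i.1 i.2 ∩ Λ).Nonempty
  · left
    simp only [if_pos hi, if_pos (hi.mono (inter_subset_inter_left h))]
    exact ⟨this, le_rfl⟩
  · right
    intro σ hσ
    refine prod_eq_one fun y hy => ?_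
    rw [mem_cfg.1 hσ _ fun k => hi (U1.meets_iff.2 ⟨y, hy, k⟩)]
    rfl

end Vale.Agent.P144N
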