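import Vale.Agent.P144N.Nice
import Vale.Agent.P144N16.Cnt
import Vale.Agent.P144A.Dom
import Vale.Agent.P144D.Dom.A
import Vale.Agent.P144E.Ge5.A
import Vale.Agent.P144D.I.U.Lip

/-!
The data from the theorem for smooth domains; nested families.
-/

namespace Vale.Agent.P144N

open Filter Topology Set Vale.Agent.P144 Vale.Agent.P144Z

variable {J lam β Zσ Zε : ℝ} {V : Finset Site → ℝ} {b : Option (ℝ → Config)}

theorem Dat.family (h : Dat J lam β Zσ Zε V b) {p : Pts} (hm : p.m = 0) {u v : ℝ}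
    {D : ℝ → Set ℂ} (hD : ∀ s ∈ Ioo u v, ∀ t ∈ Ioo u v, s < t → Inside (D s) (D t))
    (hp : ∀ t ∈ Ioo u v, Good (interior (D t)) p) :
    {t ∈ Ioo u v | ∃ c, Lim (crit J (D t) b) p c ∧
      ¬ Lim (inDom J lam V β (D t) b) p (Zσ ^ p.n * c)}.Countable := by
  obtain ⟨s, hs, hM⟩ := mono_b h.hb p.n
  have key := P144N16.sandwich (l := 𝓝[>] (0 : ℝ)) (I := Ioo u v)
    (u := fun t a => s * corr a (inDom J lam V β (D t) b a) p)
    (w := fun t a => s * (Zσ ^ p.n * corr a (crit J (D t) b a) p)) isOpen_Ioo ordConnected_Ioo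
    fun x hx y hy hxy ε hε => by
      have hx' : (u + x) / 2 ∈ Ioo u v := ⟨by linarith [hx.1], by linarith [hx.1, hx.2]⟩
      have hy' : (y + v) / 2 ∈ Ioo u v := ⟨by linarith [hy.1, hy.2], by linarith [hy.2]⟩
      filter_upwards [h.sand hs hm (hM p rfl hm) (hD _ hx' x hx (by linarith [hx.1]))
        (hD x hx y hy hxy) (hp _ hx') hε, h.sand hs hm (hM p rfl hm) (hD x hx y hy hxy)
        (hD y hy _ hy' (by linarith [hy.2])) (hp x hx) hε] with a a1 a2
      exact ⟨a1.2, by linarith [a2.1]⟩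
  refine key.mono ?_
  rintro t ⟨ht, c, h1, h2⟩
  refine ⟨ht, s * (Zσ ^ p.n * c), (Tendsto.const_mul _ h1).const_mul s, fun k => h2 ?_⟩
  have e : ∀ x : ℝ, s * (s * x) = x := fun x => by rcases hs with rfl | rfl <;> ring
  have := k.const_mul s
  simp only [e] at this
  exact this

theorem Dat.nice (h : Dat J lam β Zσ Zε V b) {D : Set ℂ} (hD : P144Y.Nice D b) {p : Pts}
    (hp : Good D p) (hm : p.m = 0) :
    ∃ c, Lim (crit J D b) p c ∧ Lim (inDom J lam V β D b) p (Zσ ^ p.n * c) := by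
  obtain ⟨-, c, h1, h2⟩ := nice_stab h.hJ hD hp hm
  exact ⟨c, h1, h.stable hm h2⟩

theorem diff_of {D : Set ℂ} {E₀ E : Fam} (h : LocDiff D E₀ E Zσ Zε) : Diff D E₀ E Zσ Zε :=
  fun p hp => (h p.n p.m p.j).tendsto_at (a := (p.x, p.y)) hp

theorem c1_tame {Q : Set ℂ} (hQ : IsC1 Q) : ∃ α > (0 : ℝ), ∀ κ > (0 : ℝ), TameK α κ Q :=
  (tameK_of (b := none) one_pos (TameW.of_tame ((tame_of_C1 hQ).mono one_le_two))
    (Or.inl rfl)).imp fun _ h => ⟨h.1, fun κ hκ => (h.2 κ hκ).1⟩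

end Vale.Agent.P144N
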