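import Vale.Agent.P144N.Sand

/-!
Dilations; star-shaped domains.
-/

namespace Vale.Agent.P144N

open Filter Topology Set Vale.Agent.P144 Vale.Agent.P144Z
open Vale.Agent.P144Q.B (shr disc_div corr_shr gibbs_cmul div_lim good_shr)

variable {J lam β Zσ Zε : ℝ} {V : Finset Site → ℝ} {b : Option (ℝ → Config)}

theorem crit_div (hb : StdBC b) {R : ℝ} (hR : 0 < R) (D : Set ℂ) (p : Pts) {a : ℝ} (ha : 0 < a) :
    corr a (crit J D b a) p = ((R ^ (-(1 / 8) : ℝ)) ^ p.n * R⁻¹ ^ p.m) *
      corr (a / R) (crit J ((fun z => z / (R : ℂ)) '' D) b (a / R)) (shr p R) := by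
  have e : crit J ((fun z => z / (R : ℂ)) '' D) b (a / R) = crit J D b a := by
    unfold crit inDom
    rw [disc_div hR]
    rcases hb with rfl | rfl | rfl <;> rfl
  rw [e]
  exact corr_shr (E := crit J D b a) (gibbs_cmul J 0 _ _ _ (disc D a)) p ha hR

/-- The set multiplied by `s`. -/
def mul (s : ℝ) (D : Set ℂ) : Set ℂ := (fun z => z / (s : ℂ)) ⁻¹' D

theorem div_mul {s : ℝ} (hs : 0 < s) (D : Set ℂ) : (fun z => z / (s : ℂ)) '' mul s D = D :=
  image_preimage_eq _ fun z => ⟨z * s, mul_div_cancel_right₀ _ (by exact_mod_cast hs.ne')⟩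

theorem lim_mul (hb : StdBC b) {s : ℝ} (hs : 0 < s) {D : Set ℂ} {p : Pts} {c : ℝ}
    (h : Lim (crit J D b) (shr p s) c) :
    Lim (crit J (mul s D) b) p (((s ^ (-(1 / 8) : ℝ)) ^ p.n * s⁻¹ ^ p.m) * c) := by
  refine ((Tendsto.comp h (div_lim hs)).const_mul _).congr' ?_
  filter_upwards [self_mem_nhdsWithin] with a ha
  rw [crit_div hb hs _ p ha, div_mul hs]
  rfl

theorem mul_bdd {s : ℝ} (hs : 0 < s) {D : Set ℂ} (h : Bornology.IsBounded D) :
    Bornology.IsBounded (mul s D) := by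
  obtain ⟨T, hT⟩ := h.exists_norm_le
  refine isBounded_iff_forall_norm_le.2 ⟨T * s, fun z hz => ?_⟩
  have := hT _ hz
  rwa [norm_div, Complex.norm_real, Real.norm_of_nonneg hs.le, div_le_iff₀ hs] at this

theorem div_cont (s : ℝ) : Continuous fun z : ℂ => z / (s : ℂ) := by fun_prop

theorem Inside.mul {s : ℝ} (hs : 0 < s) {A B : Set ℂ} (h : Inside A B) :
    Inside (mul s A) (mul s B) :=
  ⟨mul_bdd hs h.1, ((div_cont s).closure_preimage_subset _).trans ((preimage_mono h.2).trans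
    (preimage_interior_subset_interior_preimage (div_cont s)))⟩

theorem shr_eq (p : Pts) (s : ℝ) : shr p s = dil p s⁻¹ := by
  unfold shr dil
  simp only [div_eq_inv_mul, Complex.ofReal_inv]

theorem Star.inside {D : Set ℂ} (h : Star D) {s t : ℝ} (hs : 0 < s) (hst : s < t) :
    Inside (mul s D) (mul t D) := by
  have ht := hs.trans hst
  refine ⟨mul_bdd ht h.2.1, fun z hz => ?_⟩
  rw [mul, (h.1.preimage (div_cont t)).interior_eq]
  have := h.2.2 (s / t) (by positivity) ((div_lt_one ht).2 hst) _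
    ((div_cont s).closure_preimage_subset _ hz)
  have e : ((s / t : ℝ) : ℂ) * (z / s) = z / t := by
    have : (s : ℂ) ≠ 0 := by exact_mod_cast hs.ne'
    push_cast
    field_simp
  rwa [e] at this

theorem good_mul {s : ℝ} {D : Set ℂ} {p : Pts} (h : Good D (shr p s)) : Good (mul s D) p :=
  ⟨h.1, h.2.1, h.2.2.1, fun u v e => h.2.2.2 (by
    rcases u with u | u <;> rcases v with v | v <;> exact congrArg (fun z => z / (s : ℂ)) e)⟩

theorem Dat.star (h : Dat J lam β Zσ Zε V b) {D : Set ℂ} (hD : Star D) {C : Pts → ℝ}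
    (hC : ∀ p, Good D p → p.m = 0 → Lim (crit J D b) p (C p)) {p : Pts} (hp : Good D p)
    (hm : p.m = 0) : (ContinuousAt (fun t => C (dil p t)) 1 →
      Lim (inDom J lam V β D b) p (Zσ ^ p.n * C p)) ∧
    {t ∈ Ioc (0 : ℝ) 1 | ¬ ContinuousAt (fun t => C (dil p t)) t}.Countable := by
  set I : Set ℝ := {s | 0 < s ∧ ∀ i, p.x i / s ∈ D} with hI
  have io : IsOpen I := isOpen_iff_mem_nhds.2 fun s hs => (lt_mem_nhds hs.1).and
    (eventually_all.2 fun i => ContinuousAt.eventually_mem (f := fun s : ℝ => p.x i / (s : ℂ))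
      (continuousAt_const.div Complex.continuous_ofReal.continuousAt
        (by exact_mod_cast hs.1.ne')) (hD.1.mem_nhds (hs.2 i)))
  have gd : ∀ s ∈ I, Good D (shr p s) := fun s hs =>
    ⟨hp.1, hs.2, fun k => (Fin.cast hm k).elim0, (good_shr hs.1 hp).2.2.2⟩
  have key := h.nested hm io (D := fun s => mul s D)
    (c := fun s => ((s ^ (-(1 / 8) : ℝ)) ^ p.n * s⁻¹ ^ p.m) * C (shr p s))
    (fun s hs t _ hst => hD.inside hs.1 hst) fun t ht => ⟨by
      rw [mul, (hD.1.preimage (div_cont t)).interior_eq]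
      exact good_mul (gd t ht), lim_mul h.hb ht.1 (hC _ (gd t ht) hm)⟩
  have cf : ∀ s : ℝ, 0 < s →
      ContinuousAt (fun s : ℝ => (s ^ (-(1 / 8) : ℝ)) ^ p.n * s⁻¹ ^ p.m) s := fun s hs =>
    ((Real.continuousAt_rpow_const _ _ (Or.inl hs.ne')).pow _).mul
      ((continuousAt_inv₀ hs.ne').pow _)
  constructor
  · intro hc
    have o : (1 : ℝ) ∈ I := ⟨one_pos, fun i => by simpa using hp.2.1 i⟩
    have := key.1 1 o ((cf 1 one_pos).mul (by
      simp only [shr_eq]
      exact ContinuousAt.comp_of_eq (g := fun t => C (dil p t)) (f := fun s : ℝ => s⁻¹) hc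
        (continuousAt_inv₀ one_ne_zero) inv_one))
    have e1 : mul 1 D = D := by ext z; simp [mul]
    have e2 : shr p 1 = p := by unfold shr; simp
    simpa only [e1, e2, Real.one_rpow, one_pow, inv_one, one_mul] using this
  · refine (key.2.image fun s => s⁻¹).mono ?_
    rintro t ⟨⟨t0, t1⟩, ht⟩
    refine ⟨t⁻¹, ⟨⟨inv_pos.2 t0, fun i => ?_⟩, fun k => ht ?_⟩, inv_inv t⟩
    · rcases t1.eq_or_lt with rfl | t1
      · simpa using hp.2.1 i
      · have := hD.2.2 t t0 t1 _ (subset_closure (hp.2.1 i))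
        simpa only [Complex.ofReal_inv, div_inv_eq_mul, mul_comm] using this
    · have k2 := (k.div (cf _ (inv_pos.2 t0)) (by positivity)).comp
        (continuousAt_inv₀ t0.ne')
      refine k2.congr ?_
      filter_upwards [Ioi_mem_nhds t0] with u hu
      have hu : 0 < u := hu
      simp only [Function.comp, Pi.div_apply, shr_eq, inv_inv]
      field_simp

end Vale.Agent.P144N
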