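import Vale.Agent.P144N.Fam
import Vale.Agent.P144N.Star

/-!
The critical spin correlations are stable under small changes of a nice domain.
-/

namespace Vale.Agent.P144N

open Filter Topology Metric Vale.Agent.P144 Vale.Agent.P144Y Vale.Agent.P144Z
open Vale.Agent.P144.H170 (Pt pt nf ev_nf pt_fl_norm)
open Vale.Agent.P144S.V (small0)
open Vale.Agent.P144Q.L (Lip3)
open Vale.Agent.P144Q.B (shr good_shr div_lim)

variable {J : ℝ} {D : Set ℂ} {b : Option (ℝ → Config)}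

/-- The critical model in a family of finite sets. -/
noncomputable def fam (J : ℝ) (b : Option (ℝ → Config)) (P : ℝ → Finset Site) : Fam :=
  fun a => gibbs J 0 (fun _ => 0) (Kc / J) (b.map fun η => η a) (P a)

theorem all_free (hJ : 0 < J) (h' : Lip3 D) (hs' : IsConnected D) (hsm : D ⊆ ball 0 (1 / 4))
    {P : ℝ → Finset Site} (hF : Fam0 D P) : AllLim D (fam J none P) := by
  obtain ⟨Ω, rfl⟩ := P144T.dom3 h' hs' hsm
  obtain ⟨Ω', hΩ'⟩ := P144T.dom3 (P144Q.U.lip3_rc h')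
    (hs'.image _ P144Q.U.rc_cont.continuousOn) (P144Q.U.small_rc hsm)
  exact P144T.E.asm hJ (fun _ hz => Ω.dia hz) hF
    (fun p hp => ⟨(P144T.G.k12 P144T.A.xj Ω _ hF p hp).1, (P144T.G.k12 P144T.A.xj Ω _ hF p hp).2,
      (P144T.C.k34 Ω _ hF p hp).1, (P144T.C.k34 Ω _ hF p hp).2⟩)
    (P144T.E.norm _ _ Ω.op Ω.small hF (P144T.B.ratio P144T.A.xj Ω Ω' hΩ' _ hF))

theorem all_plus (hJ : 0 < J) (h3 : Lip3 D) (hs' : IsConnected D) (hsm : D ⊆ ball 0 (1 / 4))
    {P : ℝ → Finset Site} (hF : FamP D P) : AllLim D (fam J (some fun _ _ => true) P) := by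
  obtain ⟨Ω, rfl⟩ := V.dom D h3 hs' hsm
  obtain ⟨Ω', hΩ'⟩ := V.dom _ (P144Q.U.lip3_rc h3) (hs'.image _ P144Q.U.rc_cont.continuousOn)
    (P144Q.U.small_rc hsm)
  have st : Std Ω.D := ⟨Ω.op, Ω.small, Ω.fat, hs'.nonempty⟩
  obtain ⟨T, hT, hR⟩ := L.srep _ _ st hF
  exact F.asm J hJ _ _ T hF hR (fun p hp S hS => C.k34 Ω _ hF p hp S fun z hz => hT z (hS hz))
    fun X hX S hS => (F.normW (N.one K.smm) (N.shole (N.big K.smm)) Ω Ω' hΩ' st
      (L.sout _ h3 st.ne) ⟨_, hF⟩ X S hX fun z hz => hT z (hS hz)).imp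
        fun g hg => ⟨hg.1, hg.2 _ hF⟩

theorem all_minus {P : ℝ → Finset Site} (h : AllLim D (fam J (some fun _ _ => true) P)) :
    AllLim D (fam J (some fun _ _ => false) P) := fun p hp => by
  obtain ⟨c, hc⟩ := h p hp
  refine ⟨(-1) ^ p.n * c, (Tendsto.const_mul _ hc).congr fun a => ?_⟩
  exact (P144S.F.corr_rev J _ a (P a) p).symm

/-- The class of families. -/
def Cl (L : Prop) (D : Set ℂ) (P : ℝ → Finset Site) : Prop :=
  Fam0 D P ∧ (L → LC (𝓝[>] 0) (fun a => a) P)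

open Classical in
theorem Cl.mix {L : Prop} {P Q : ℝ → Finset Site} (hP : Cl L D P) (hQ : Cl L D Q) :
    Cl L D fun a => if Irrational a then P a else Q a := by
  refine ⟨⟨fun z hz => ?_, fun ε hε => ?_, ?_⟩, fun hL => ?_⟩
  · filter_upwards [hP.1.inn z hz, hQ.1.inn z hz] with kx h1 h2
    split_ifs <;> assumption
  · filter_upwards [hP.1.sub ε hε, hQ.1.sub ε hε] with a h1 h2
    split_ifs <;> assumption
  · obtain ⟨r, hr, h1⟩ := hP.1.kc
    obtain ⟨s, hs, h2⟩ := hQ.1.kc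
    refine ⟨min r s, by positivity, ?_⟩
    filter_upwards [h1, h2] with a h1 h2
    split_ifs
    · exact fun x hx y hy e => h1 x hx y hy (e.trans (min_le_left _ _))
    · exact fun x hx y hy e => h2 x hx y hy (e.trans (min_le_right _ _))
  · obtain ⟨r, hr, h1⟩ := hP.2 hL
    obtain ⟨s, hs, h2⟩ := hQ.2 hL
    refine ⟨min r s, by positivity, ?_⟩
    filter_upwards [h1, h2] with a h1 h2
    split_ifs
    · exact fun x hx y hy e => h1 x hx y hy (e.trans (min_le_left _ _))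
    · exact fun x hx y hy e => h2 x hx y hy (e.trans (min_le_right _ _))

theorem same {L : Prop} (hA : ∀ P, Cl L D P → AllLim D (fam J b P)) {P Q : ℝ → Finset Site}
    (hP : Cl L D P) (hQ : Cl L D Q) {p : Pts} (hp : Good D p) {c : ℝ} (hc : Lim (fam J b Q) p c) :
    Lim (fam J b P) p c := by
  obtain ⟨d, hd⟩ := hA P hP p hp
  obtain ⟨e, he⟩ := hA _ (hP.mix hQ) p hp
  have e1 : e = d := tendsto_nhds_unique_of_frequently_eq he hd
    ((nhdsGT_basis (0 : ℝ)).frequently_iff.2 fun u hu => by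
      obtain ⟨x, h1, h2⟩ := exists_irrational_btwn hu
      exact ⟨x, h2, by simp only [fam, if_pos h1]⟩)
  have e2 : e = c := tendsto_nhds_unique_of_frequently_eq he hc
    ((nhdsGT_basis (0 : ℝ)).frequently_iff.2 fun u hu => by
      obtain ⟨x, h2⟩ := exists_rat_btwn hu
      exact ⟨x, h2, by simp only [fam, if_neg (Rat.not_irrational x)]⟩)
  rwa [← e2, e1]

theorem diag {f : ℝ → ℝ → ℝ} {c : ℝ} (h : ∀ δ : ℝ → ℝ, (∀ a > 0, 0 < δ a) →
    Tendsto δ (𝓝[>] 0) (𝓝 0) → Tendsto (fun a => f (δ a) a) (𝓝[>] 0) (𝓝 c)) {ε η : ℝ}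
    (hε : 0 < ε) (hη : 0 < η) : ∃ δ, 0 < δ ∧ δ ≤ η ∧ ∀ᶠ a in 𝓝[>] (0 : ℝ), |f δ a - c| ≤ ε := by
  classical
  by_contra hn
  have k : ∀ n : ℕ, ∃ a, (0 < a ∧ a < 1 / ((n : ℝ) + 1)) ∧ ¬ |f (η * (1 / (n + 1))) a - c| ≤ ε := by
    intro n
    have h0 : (0 : ℝ) < 1 / (n + 1) := by positivity
    have h1 : 1 / ((n : ℝ) + 1) ≤ 1 := by
      rw [div_le_one (by positivity)]
      linarith [Nat.cast_nonneg (α := ℝ) n]
    have : ∃ᶠ a in 𝓝[>] (0 : ℝ), ¬ |f (η * (1 / (n + 1))) a - c| ≤ ε :=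
      not_eventually.1 fun e => hn ⟨_, by positivity, mul_le_of_le_one_right hη.le h1, e⟩
    exact ((small0 h0).and_frequently this).exists
  choose u hu using k
  set δ : ℝ → ℝ := fun a => if h : ∃ n, u n = a then η * (1 / ((h.choose : ℝ) + 1)) else a with hδ
  have z1 : Tendsto (fun n : ℕ => η * (1 / ((n : ℝ) + 1))) atTop (𝓝 0) := by
    simpa only [mul_zero] using tendsto_one_div_add_atTop_nhds_zero_nat.const_mul η
  have pos : ∀ a > 0, 0 < δ a := fun a ha => by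
    simp only [hδ]
    split_ifs
    · positivity
    · exact ha
  have lim : Tendsto δ (𝓝[>] 0) (𝓝 0) := by
    refine tendsto_order.2 ⟨fun x hx => eventually_mem_nhdsWithin.mono fun a ha =>
      hx.trans (pos a ha), fun x hx => ?_⟩
    obtain ⟨N, hN⟩ := eventually_atTop.1 (z1.eventually (gt_mem_nhds hx))
    filter_upwards [small0 hx, (Finset.range N).eventually_all.2 fun n _ => small0 (hu n).1.1]
      with a h1 h2
    simp only [hδ]
    split_ifs with h
    · refine hN _ (not_lt.1 fun c => ?_)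
      exact (h2 _ (Finset.mem_range.2 c)).2.ne' h.choose_spec
    · exact h1.2
  have ul : Tendsto u atTop (𝓝[>] 0) := tendsto_nhdsWithin_iff.2
    ⟨squeeze_zero (fun n => (hu n).1.1.le) (fun n => (hu n).1.2.le)
      tendsto_one_div_add_atTop_nhds_zero_nat, .of_forall fun n => (hu n).1.1⟩
  obtain ⟨n, hn⟩ := (((h δ pos lim).comp ul).eventually (closedBall_mem_nhds c hε)).exists
  have ex : ∃ m, u m = u n := ⟨n, rfl⟩
  refine (hu ex.choose).2 ?_
  rw [ex.choose_spec]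
  simpa only [Function.comp, hδ, dif_pos ex, Real.dist_eq] using hn

/-- The stability hypothesis. -/
def Stab (J : ℝ) (D : Set ℂ) (b : Option (ℝ → Config)) (p : Pts) (c : ℝ) : Prop :=
  ∀ ε > 0, ∃ D₁ D₂, Inside D₁ D ∧ Inside D D₂ ∧ Good (interior D₁) p ∧
    ∀ᶠ a in 𝓝[>] (0 : ℝ), |corr a (crit J D₁ b a) p - c| ≤ ε ∧ |corr a (crit J D₂ b a) p - c| ≤ ε

theorem squeeze (hJ : 0 < J) (hb : StdBC b) {P Q R : ℝ → Finset Site} (hP : Fam0 D P) {p : Pts}
    (hp : Good D p) (hm : p.m = 0) {c : ℝ} (h1 : Lim (fam J b P) p c) (h2 : Lim (fam J b R) p c)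
    (h : ∀ᶠ a in 𝓝[>] (0 : ℝ), P a ⊆ Q a ∧ Q a ⊆ R a) : Lim (fam J b Q) p c := by
  obtain ⟨s, hs, H⟩ := mono_f hb p.n
  replace H := H p rfl hm J 0 _ _ pot0 (kc_nonneg hJ) (cf0 hJ)
  have hx : ∀ᶠ a in 𝓝[>] (0 : ℝ), ∀ i, fl a (p.x i) ∈ P a := eventually_all.2 fun i =>
    hP.mem tendsto_id (hp.2.1 i) (H365.pt_fl_lim tendsto_id tendsto_const_nhds)
  have := (tendsto_of_tendsto_of_tendsto_of_le_of_le' (f := fun a => s * corr a (fam J b Q a) p)
    (h1.const_mul s) (h2.const_mul s) (by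
      filter_upwards [h, hx, self_mem_nhdsWithin] with a h hx ha using H a ha _ _ h.1 hx) (by
      filter_upwards [h, hx, self_mem_nhdsWithin] with a h hx ha
        using H a ha _ _ h.2 fun i => h.1 (hx i))).const_mul s
  have e : ∀ x : ℝ, s * (s * x) = x := fun x => by rcases hs with rfl | rfl <;> ring
  simp only [e] at this
  exact this

theorem stab_small (hJ : 0 < J) (hb : StdBC b) (hD : Std D) (hO : OutL D) {L : Prop}
    (hA : ∀ P, Cl L D P → AllLim D (fam J b P)) (hΛ : Cl L D (disc D)) {p : Pts} (hp : Good D p)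
    (hm : p.m = 0) {c : ℝ} (hc : Lim (crit J D b) p c) : Stab J D b p c := by
  intro ε hε
  have bd : Bornology.IsBounded D := isBounded_ball.subset hD.small
  have s1 : ∀ δ > (0 : ℝ), {z | δ ≤ infDist z Dᶜ} ⊆ D := fun δ hδ x hx => by
    by_contra hc
    have : δ ≤ infDist x Dᶜ := hx
    rw [infDist_zero_of_mem hc] at this
    linarith
  have hne : Dᶜ.Nonempty := ⟨1, fun h' => by
    have := hD.small h'
    norm_num at this⟩
  obtain ⟨κ, hκ, hκ1, r₀, hr₀, hF⟩ := P144Q.V.fat' hD.fat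
  obtain ⟨η, hη, hx⟩ : ∃ η > (0 : ℝ), ∀ i, η < infDist (p.x i) Dᶜ := by
    have : ∀ᶠ η in 𝓝[>] (0 : ℝ), ∀ i, η < infDist (p.x i) Dᶜ := eventually_all.2 fun i =>
      (small0 ((hD.op.isClosed_compl.notMem_iff_infDist_pos hne).1
        (not_not.2 (hp.2.1 i)))).mono fun _ h => h.2
    exact (eventually_mem_nhdsWithin.and this).exists
  obtain ⟨δ₁, p1, q1, e1⟩ := diag (c := c)
    (f := fun δ a => corr a (crit J {z | δ < infDist z Dᶜ} b a) p) (fun δ pos lim => by
      have la : Tendsto (fun a : ℝ => a) (𝓝[>] 0) (𝓝 0) := tendsto_id.mono_left nhdsWithin_le_nhds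
      have lρ : Tendsto (fun a : ℝ => δ a + 2 * a / κ) (𝓝[>] 0) (𝓝 0) := by
        simpa using lim.add ((la.const_mul 2).div_const κ)
      have hk : Tendsto (fun a : ℝ => (⌈3 * (δ a + 2 * a / κ) / a⌉₊ : ℝ) * a) (𝓝[>] 0) (𝓝 0) := by
        refine squeeze_zero' (eventually_mem_nhdsWithin.mono fun a ha =>
          mul_nonneg (Nat.cast_nonneg _) (le_of_lt ha)) (eventually_mem_nhdsWithin.mono
            fun a ha => ?_) (by simpa using (lρ.const_mul 3).add la)
        have ha : 0 < a := ha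
        have := pos a ha
        have := mul_le_mul_of_nonneg_right (Nat.ceil_lt_add_one
          (show 0 ≤ 3 * (δ a + 2 * a / κ) / a by positivity)).le ha.le
        rwa [add_mul, div_mul_cancel₀ _ ha.ne', one_mul] at this
      have hI := inner hΛ.1 hk
      refine squeeze (Q := fun a => disc {z | δ a < infDist z Dᶜ} a) hJ hb hI.1 hp hm
        (same hA ⟨hI.1, fun h => hI.2 (hΛ.2 h)⟩ hΛ hp hc) hc ?_
      filter_upwards [self_mem_nhdsWithin, lρ.eventually (gt_mem_nhds hr₀)] with a ha h0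
      have ha : 0 < a := ha
      have dp := pos a ha
      have sb : {z | δ a < infDist z Dᶜ} ⊆ D := fun z hz =>
        s1 _ dp (show δ a ≤ infDist z Dᶜ from le_of_lt hz)
      refine ⟨fun x hx => (mem_disc (bd.subset sb) ha x).2 ?_, disc_sub sb bd ha⟩
      by_contra hn
      have a2 : 0 < 2 * a / κ := by positivity
      set ρ := δ a + 2 * a / κ with hρ
      obtain ⟨z, hz, d1⟩ := (infDist_lt_iff hne).1
        (show infDist (pt a x) Dᶜ < ρ from (not_lt.1 hn).trans_lt (by linarith))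
      obtain ⟨w, d2, d3⟩ := hF z hz ρ (by linarith) h0.le
      have d4 := pt_fl_norm ha w
      have d5 : 2 * a ≤ κ * ρ := by
        rw [hρ, mul_add, mul_div_cancel₀ _ hκ.ne']
        nlinarith
      have d6 : κ * ρ ≤ ρ := mul_le_of_le_one_left (by linarith) hκ1
      have d7 : ‖pt a (fl a w) - pt a x‖ ≤ 3 * ρ := by
        rw [dist_eq_norm, norm_sub_rev] at d1
        linarith [norm_sub_le_norm_sub_add_norm_sub (pt a (fl a w)) w (pt a x),
          norm_sub_le_norm_sub_add_norm_sub w z (pt a x)]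
      have co : ∀ m n : ℤ, |a * m - a * n| ≤ 3 * ρ → |m - n| ≤ (⌈3 * ρ / a⌉₊ : ℕ) := fun m n h => by
        rw [← mul_sub, abs_mul, abs_of_pos ha, mul_comm, ← le_div_iff₀ ha] at h
        exact_mod_cast h.trans (Nat.le_ceil _)
      exact d3 _ (d4.trans d5) ((mem_disc bd ha _).1 (mem_core.1 hx (fl a w)
        (co _ _ ((Complex.abs_re_le_norm _).trans d7))
        (co _ _ ((Complex.abs_im_le_norm _).trans d7))))) hε hη
  obtain ⟨δ₂, p2, -, e2⟩ := diag (c := c)
    (f := fun δ a => corr a (crit J (thickening δ D) b a) p) (fun δ pos lim => by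
      have hs : ∀ᶠ a in 𝓝[>] (0 : ℝ), disc D a ⊆ disc (thickening (δ a) D) a :=
        eventually_mem_nhdsWithin.mono fun a ha =>
          disc_sub (self_subset_thickening (pos a ha) D) bd.thickening ha
      obtain ⟨P₂, hP, h2⟩ := outer (P := fun a => disc (thickening (δ a) D) a) hD hO hΛ.1
        (fun ε hε => by
          filter_upwards [self_mem_nhdsWithin, lim.eventually (gt_mem_nhds hε)] with a ha h0 x hx
          obtain ⟨z, hz, d⟩ := mem_thickening_iff.1 ((mem_disc bd.thickening ha x).1 hx)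
          rw [dist_eq_norm] at d
          exact ⟨z, hz, (d.trans h0).le⟩) hs
      exact squeeze (Q := fun a => disc (thickening (δ a) D) a) hJ hb hΛ.1 hp hm hc
        (same hA ⟨hP.1, fun _ => hP.2⟩ hΛ hp hc) (hs.and h2)) hε hη
  have o1 : IsOpen {z | δ₁ < infDist z Dᶜ} := isOpen_lt continuous_const (continuous_infDist_pt _)
  refine ⟨_, _, ⟨bd, ?_⟩, ⟨bd.thickening, ?_⟩, ?_, e1.and e2⟩
  · rw [hD.op.interior_eq]
    exact (closure_lt_subset_le continuous_const (continuous_infDist_pt _)).trans (s1 _ p1)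
  · rw [isOpen_thickening.interior_eq]
    exact closure_subset_thickening p2 D
  · rw [o1.interior_eq]
    exact ⟨hp.1, fun i => q1.trans_lt (hx i), fun k => (Fin.cast hm k).elim0, hp.2.2.2⟩

theorem Stab.mul (hb : StdBC b) {s : ℝ} (hs : 0 < s) {p : Pts} {c : ℝ}
    (h : Stab J D b (shr p s) c) :
    Stab J (mul s D) b p (((s ^ (-(1 / 8) : ℝ)) ^ p.n * s⁻¹ ^ p.m) * c) := by
  intro ε hε
  have hf : 0 < (s ^ (-(1 / 8) : ℝ)) ^ p.n * s⁻¹ ^ p.m := by positivity
  obtain ⟨D₁, D₂, h1, h2, hp, he⟩ := h (ε / ((s ^ (-(1 / 8) : ℝ)) ^ p.n * s⁻¹ ^ p.m))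
    (by positivity)
  refine ⟨P144N.mul s D₁, P144N.mul s D₂, h1.mul hs, h2.mul hs, good_mono
    (preimage_interior_subset_interior_preimage (div_cont s)) (good_mul hp), ?_⟩
  filter_upwards [(div_lim hs).eventually he, self_mem_nhdsWithin] with a ⟨e1, e2⟩ ha
  rw [crit_div hb hs _ p ha, crit_div hb hs (P144N.mul s D₂) p ha, div_mul hs, div_mul hs,
    ← mul_sub, ← mul_sub]
  simp only [abs_mul (_ * _), abs_of_pos hf, ← le_div_iff₀' hf]
  exact ⟨e1, e2⟩

theorem nice_stab (hJ : 0 < J) (h : Nice D b) {p : Pts} (hp : Good D p) (hm : p.m = 0) :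
    StdBC b ∧ ∃ c, Lim (crit J D b) p c ∧ Stab J D b p c := by
  have hb : StdBC b := h.cases.elim (fun h => h.2) fun h => Or.inl h.2
  have h3 : Lip3 D := h.cases.elim (fun h => P144S.L.lip3_of_lip4 h.1) fun h => h.1
  obtain ⟨t, R0, hsm⟩ := P144Q.U.exists_small h3.2.1
  have h' := P144Q.U.lip3_div R0 h3
  have hs' : IsConnected ((fun z => z / (t : ℂ)) '' D) := h.1.image _ (by fun_prop)
  have hp' := good_shr R0 hp
  have e : mul t ((fun z => z / (t : ℂ)) '' D) = D := Set.preimage_image_eq _ fun x y e =>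
    (div_left_inj' (by exact_mod_cast R0.ne')).1 e
  obtain ⟨M, hA, hΛ⟩ : ∃ M : Prop, (∀ P, Cl M ((fun z => z / (t : ℂ)) '' D) P →
      AllLim ((fun z => z / (t : ℂ)) '' D) (fam J b P)) ∧
      Cl M ((fun z => z / (t : ℂ)) '' D) (disc ((fun z => z / (t : ℂ)) '' D)) := by
    rcases hb with rfl | hb
    · exact ⟨False, fun P hP => all_free hJ h' hs' hsm hP.1, P144T.lat3 h', False.elim⟩
    · have h4 : Lip4 D := h.cases.elim (fun h => h.1) fun h => by
        rcases hb with rfl | rfl <;> exact absurd h.2 (by simp)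
      have hF := L.slat _ (P144S.L.lip4_div R0 h4)
      refine ⟨True, fun P hP => ?_, hF.1, fun _ => hF.2⟩
      have := all_plus hJ h' hs' hsm ⟨hP.1, hP.2 trivial⟩
      rcases hb with rfl | rfl
      exacts [this, all_minus this]
  obtain ⟨c, hc⟩ := hA _ hΛ _ hp'
  have h1 := lim_mul hb R0 (D := (fun z => z / (t : ℂ)) '' D) hc
  have h2 := (stab_small hJ hb ⟨h'.1, hsm, P144Q.L.fat3 h', hs'.nonempty⟩
    (L.sout _ h' hs'.nonempty) hA hΛ hp' hm hc).mul hb R0
  rw [e] at h1 h2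
  exact ⟨hb, _, h1, h2⟩

end Vale.Agent.P144N
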