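import Vale.Agent.P144N.Defs
import Vale.Agent.P144N.Gks
import Vale.Agent.P144N.Appr
import Vale.Agent.P144Q.BFin
import Vale.Agent.P144.H170.Comp

/-!
The spin correlations of a ferromagnetic perturbation in an arbitrary bounded set lie between those
of the critical model in a smaller and in a larger set.
-/

namespace Vale.Agent.P144N

open Filter Topology Set Vale.Agent.P144 Vale.Agent.P144Z

theorem ev_mem {D : Set ℂ} (hD : Bornology.IsBounded D) {z : ℂ} (hz : z ∈ interior D) :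
    ∀ᶠ a in 𝓝[>] (0 : ℝ), fl a z ∈ disc D a := by
  obtain ⟨r, hr, h⟩ := Metric.mem_nhds_iff.1 (mem_interior_iff_mem_nhds.1 hz)
  filter_upwards [Ioo_mem_nhdsGT (show (0 : ℝ) < r / 2 by positivity)] with a ha
  refine (mem_disc hD ha.1 _).2 (h ?_)
  rw [Metric.mem_ball, dist_eq_norm]
  exact (H170.pt_fl_norm ha.1 z).trans_lt (by linarith [ha.2])

theorem corr_spin (J lam : ℝ) (V : Finset Site → ℝ) (β : ℝ) (b : Option Config) (Λ : Finset Site)
    (a : ℝ) {n : ℕ} (x : Fin n → ℂ) (y : Fin 0 → ℂ) (j : Fin 0 → Fin 2) :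
    corr a (gibbs J lam V β b Λ) ⟨n, 0, x, y, j⟩ =
      (a ^ (-(1 / 8) : ℝ)) ^ n * gibbs J lam V β b Λ fun σ => ∏ i, sp (σ (fl a (x i))) := by
  rw [← P144Q.B.gibbs_cmul]
  unfold corr
  simp only [Finset.prod_mul_distrib, Finset.prod_const, Finset.card_univ, Fintype.card_fin,
    Finset.univ_eq_empty, Finset.prod_empty, mul_one, Finset.card_empty, pow_zero]

/-- The correlations times `s` increase with the domain. -/
def Mono (s : ℝ) (b : Option (ℝ → Config)) (p : Pts) : Prop :=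
  ∀ J lam V β, IsPotential V → 0 ≤ β → (∀ A, 0 ≤ U1.cf J lam V A) → ∀ D D' : Set ℂ, D ⊆ D' →
    Bornology.IsBounded D' → (∀ i, p.x i ∈ interior D) → ∀ᶠ a in 𝓝[>] (0 : ℝ),
      s * corr a (inDom J lam V β D b a) p ≤ s * corr a (inDom J lam V β D' b a) p

/-- The same for finite sets. -/
def MonoF (s : ℝ) (b : Option (ℝ → Config)) (p : Pts) : Prop :=
  ∀ J lam V β, IsPotential V → 0 ≤ β → (∀ A, 0 ≤ U1.cf J lam V A) → ∀ a > (0 : ℝ),
    ∀ Λ Λ' : Finset Site, Λ ⊆ Λ' → (∀ i, fl a (p.x i) ∈ Λ) →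
      s * corr a (gibbs J lam V β (b.map fun η => η a) Λ) p ≤
        s * corr a (gibbs J lam V β (b.map fun η => η a) Λ') p

theorem mono_f {b : Option (ℝ → Config)} (hb : StdBC b) (n : ℕ) :
    ∃ s : ℝ, (s = 1 ∨ s = -1) ∧ ∀ p : Pts, p.n = n → p.m = 0 → MonoF s b p := by
  rcases hb with rfl | rfl | rfl
  · refine ⟨1, Or.inl rfl, ?_⟩
    rintro ⟨n, m, x, y, j⟩ rfl rfl J lam V β hV hβ hf a ha D D' h hm
    simp only [Option.map_none, corr_spin, one_mul]
    exact mul_le_mul_of_nonneg_left (mono_free hV hβ hf h hm) (by positivity)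
  · refine ⟨-1, Or.inr rfl, ?_⟩
    rintro ⟨n, m, x, y, j⟩ rfl rfl J lam V β hV hβ hf a ha D D' h hm
    simp only [Option.map_some, corr_spin, neg_mul, one_mul, neg_le_neg_iff]
    exact mul_le_mul_of_nonneg_left (mono_plus hV hβ hf h _) (by positivity)
  · refine ⟨-(-1) ^ n, by rcases neg_one_pow_eq_or ℝ n with e | e <;> simp [e], ?_⟩
    rintro ⟨n, m, x, y, j⟩ rfl rfl J lam V β hV hβ hf a ha D D' h hm
    have e : ∀ Λ, gibbs J lam V β (some fun _ => false) Λ (fun σ => ∏ i, sp (σ (fl a (x i)))) =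
        (-1) ^ n * gibbs J lam V β (some fun _ => true) Λ fun σ => ∏ i, sp (σ (fl a (x i))) := by
      intro Λ
      rw [← P144Q.B.gibbs_cmul]
      refine (UG.gibbs_not hV Λ (fun _ => true) _).trans ?_
      simp only [U1.sp_not, Finset.prod_neg, Finset.card_univ, Fintype.card_fin]
    have e2 : ((-1 : ℝ) ^ n) * (-1) ^ n = 1 := by rw [← mul_pow]; simp
    have := mul_le_mul_of_nonneg_left (mono_plus hV hβ hf h fun i => fl a (x i))
      (show 0 ≤ (a ^ (-(1 / 8) : ℝ)) ^ n by positivity)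
    simp only [Option.map_some, corr_spin, e]
    have k : ∀ u v : ℝ, -(-1) ^ n * (u * ((-1) ^ n * v)) = -(u * v) := fun u v => by
      linear_combination (-(u * v)) * e2
    rw [k, k]
    exact neg_le_neg this

theorem disc_sub {D D' : Set ℂ} {a : ℝ} (h : D ⊆ D') (hD : Bornology.IsBounded D') (ha : 0 < a) :
    disc D a ⊆ disc D' a := fun x hx =>
  (mem_disc hD ha x).2 (h ((mem_disc (hD.subset h) ha x).1 hx))

theorem mono_b {b : Option (ℝ → Config)} (hb : StdBC b) (n : ℕ) :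
    ∃ s : ℝ, (s = 1 ∨ s = -1) ∧ ∀ p : Pts, p.n = n → p.m = 0 → Mono s b p := by
  obtain ⟨s, hs, H⟩ := mono_f hb n
  refine ⟨s, hs, fun p hn hm J lam V β hV hβ hf D D' h hD hx => ?_⟩
  filter_upwards [self_mem_nhdsWithin, eventually_all.2 fun i => ev_mem (hD.subset h) (hx i)]
    with a ha hx
  exact H p hn hm J lam V β hV hβ hf a ha _ _ (disc_sub h hD ha) hx

theorem c1_open {Q : Set ℂ} (h : IsC1 Q) : IsOpen Q := by
  obtain ⟨-, F, hF, rfl, -⟩ := h
  exact isOpen_lt continuous_const hF.continuous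

theorem good_mono {D D' : Set ℂ} (h : D ⊆ D') {p : Pts} (hp : Good D p) : Good D' p :=
  ⟨hp.1, fun i => h (hp.2.1 i), fun k => h (hp.2.2.1 k), hp.2.2.2⟩

variable {J lam β Zσ Zε : ℝ} {V : Finset Site → ℝ} {b : Option (ℝ → Config)}

/-- The standing data. -/
structure Dat (J lam β Zσ Zε : ℝ) (V : Finset Site → ℝ) (b : Option (ℝ → Config)) : Prop where
  hJ : 0 < J
  hV : IsPotential V
  hβ : 0 < β
  hZ : 0 < Zσ
  hf : ∀ A, 0 ≤ U1.cf J lam V A
  hb : StdBC b
  c1 : ∀ Q, IsC1 Q → Diff Q (crit J Q b) (inDom J lam V β Q b) Zσ Zε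

theorem kc_nonneg {J : ℝ} (hJ : 0 < J) : 0 ≤ Kc / J :=
  div_nonneg (div_nonneg (Real.log_nonneg (by linarith [Real.sqrt_nonneg 2])) two_pos.le) hJ.le

theorem pot0 : IsPotential fun _ => 0 :=
  ⟨rfl, fun _ h => absurd rfl h, ⟨0, fun _ h => absurd rfl h⟩, fun _ _ => rfl, fun _ => rfl,
    fun _ => rfl⟩

theorem cf0 (hJ : 0 < J) (A : Finset Site) : 0 ≤ U1.cf J 0 (fun _ => 0) A := by
  unfold U1.cf
  split_ifs <;> linarith

theorem Mono.crit {s : ℝ} {p : Pts} (h : Mono s b p) (hJ : 0 < J) {D D' : Set ℂ} (hs : D ⊆ D')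
    (hD : Bornology.IsBounded D') (hx : ∀ i, p.x i ∈ interior D) : ∀ᶠ a in 𝓝[>] (0 : ℝ),
      s * corr a (crit J D b a) p ≤ s * corr a (crit J D' b a) p :=
  h J 0 _ _ pot0 (kc_nonneg hJ) (cf0 hJ) D D' hs hD hx

theorem Dat.sand (h : Dat J lam β Zσ Zε V b) {s : ℝ} (hs : s = 1 ∨ s = -1) {p : Pts}
    (hm : p.m = 0) (hM : Mono s b p) {D₁ D D₂ : Set ℂ} (h1 : Inside D₁ D) (h2 : Inside D D₂)
    (hp : Good (interior D₁) p) {ε : ℝ} (hε : 0 < ε) : ∀ᶠ a in 𝓝[>] (0 : ℝ),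
      s * (Zσ ^ p.n * corr a (crit J D₁ b a) p) - ε ≤ s * corr a (inDom J lam V β D b a) p ∧
      s * corr a (inDom J lam V β D b a) p ≤ s * (Zσ ^ p.n * corr a (crit J D₂ b a) p) + ε := by
  have b1 : Bornology.IsBounded D₁ := h1.1.subset (subset_closure.trans (h1.2.trans interior_subset))
  obtain ⟨Q₁, q1, k1, l1⟩ := exists_C1 b1.isCompact_closure isOpen_interior h1.2
  obtain ⟨Q₂, q2, k2, l2⟩ := exists_C1 h1.1.isCompact_closure isOpen_interior h2.2
  have i1 : interior D₁ ⊆ Q₁ := interior_subset.trans (subset_closure.trans k1)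
  have i2 : Q₁ ⊆ Q₂ := l1.trans (interior_subset.trans (subset_closure.trans k2))
  have g1 := good_mono i1 hp
  have g2 := good_mono i2 g1
  have x1 : ∀ i, p.x i ∈ interior Q₁ := fun i => by rw [(c1_open q1).interior_eq]; exact g1.2.1 i
  have x2 : ∀ i, p.x i ∈ interior Q₂ := fun i => by rw [(c1_open q2).interior_eq]; exact g2.2.1 i
  have hz : 0 ≤ Zσ ^ p.n := (pow_pos h.hZ _).le
  filter_upwards [hM.crit h.hJ (subset_closure.trans k1) q1.1 hp.2.1,
    hM J lam V β h.hV h.hβ.le h.hf Q₁ D (l1.trans interior_subset) h1.1 x1,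
    hM J lam V β h.hV h.hβ.le h.hf D Q₂ (subset_closure.trans k2) q2.1
      fun i => l1 (g1.2.1 i),
    hM.crit h.hJ (l2.trans interior_subset) h2.1 x2,
    (h.c1 Q₁ q1 p g1).eventually (Icc_mem_nhds (neg_lt_zero.2 hε) hε),
    (h.c1 Q₂ q2 p g2).eventually (Icc_mem_nhds (neg_lt_zero.2 hε) hε)] with a m1 m2 m3 m4 d1 d2
  simp only [hm, pow_zero, mul_one] at d1 d2
  have m1 := mul_le_mul_of_nonneg_left m1 hz
  have m4 := mul_le_mul_of_nonneg_left m4 hz
  rcases hs with rfl | rfl <;> constructor <;> linarith [d1.1, d1.2, d2.1, d2.2]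

theorem Dat.between (h : Dat J lam β Zσ Zε V b) {p : Pts} (hm : p.m = 0) {D₁ D D₂ : Set ℂ}
    (h1 : Inside D₁ D) (h2 : Inside D D₂) (hp : Good (interior D₁) p) {ε : ℝ} (hε : 0 < ε) :
    ∀ᶠ a in 𝓝[>] (0 : ℝ), corr a (inDom J lam V β D b a) p ∈
      Icc (Zσ ^ p.n * min (corr a (crit J D₁ b a) p) (corr a (crit J D₂ b a) p) - ε)
        (Zσ ^ p.n * max (corr a (crit J D₁ b a) p) (corr a (crit J D₂ b a) p) + ε) := by
  obtain ⟨s, hs, hM⟩ := mono_b h.hb p.n
  have hz : 0 ≤ Zσ ^ p.n := (pow_pos h.hZ _).le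
  filter_upwards [h.sand hs hm (hM p rfl hm) h1 h2 hp hε] with a ⟨e1, e2⟩
  rw [mul_min_of_nonneg _ _ hz, mul_max_of_nonneg _ _ hz]
  generalize Zσ ^ p.n * corr a (crit J D₁ b a) p = u at *
  generalize Zσ ^ p.n * corr a (crit J D₂ b a) p = v at *
  rcases hs with rfl | rfl <;> constructor <;>
    linarith [min_le_left u v, min_le_right u v, le_max_left u v, le_max_right u v]

/-- The identity when the critical correlation is stable. -/
theorem Dat.stable (h : Dat J lam β Zσ Zε V b) {p : Pts} (hm : p.m = 0) {D : Set ℂ} {c : ℝ}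
    (hc : ∀ ε > 0, ∃ D₁ D₂, Inside D₁ D ∧ Inside D D₂ ∧ Good (interior D₁) p ∧
      ∀ᶠ a in 𝓝[>] (0 : ℝ), |corr a (crit J D₁ b a) p - c| ≤ ε ∧
        |corr a (crit J D₂ b a) p - c| ≤ ε) :
    Lim (inDom J lam V β D b) p (Zσ ^ p.n * c) := by
  refine Metric.tendsto_nhds.2 fun ε hε => ?_
  have hz : 0 < Zσ ^ p.n := pow_pos h.hZ _
  obtain ⟨D₁, D₂, h1, h2, hp, he⟩ := hc (ε / 3 / Zσ ^ p.n) (by positivity)
  filter_upwards [h.between hm h1 h2 hp (show 0 < ε / 3 by positivity), he] with a ⟨e1, e2⟩ ⟨f1, f2⟩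
  have k : Zσ ^ p.n * (ε / 3 / Zσ ^ p.n) = ε / 3 := by field_simp
  rw [abs_le] at f1 f2
  generalize corr a (crit J D₁ b a) p = u at *
  generalize corr a (crit J D₂ b a) p = v at *
  generalize ε / 3 / Zσ ^ p.n = η at *
  have g1 := mul_le_mul_of_nonneg_left (show c - η ≤ min u v from
    le_min (by linarith [f1.1]) (by linarith [f2.1])) hz.le
  have g2 := mul_le_mul_of_nonneg_left (show max u v ≤ c + η from
    max_le (by linarith [f1.2]) (by linarith [f2.2])) hz.le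
  rw [mul_sub, k] at g1
  rw [mul_add, k] at g2
  rw [Real.dist_eq, abs_lt]
  constructor <;> linarith

theorem Dat.nested (h : Dat J lam β Zσ Zε V b) {p : Pts} (hm : p.m = 0) {I : Set ℝ}
    (hI : IsOpen I) {D : ℝ → Set ℂ} {c : ℝ → ℝ}
    (hD : ∀ s ∈ I, ∀ t ∈ I, s < t → Inside (D s) (D t))
    (hc : ∀ t ∈ I, Good (interior (D t)) p ∧ Lim (crit J (D t) b) p (c t)) :
    (∀ t ∈ I, ContinuousAt c t → Lim (inDom J lam V β (D t) b) p (Zσ ^ p.n * c t)) ∧
      {t ∈ I | ¬ ContinuousAt c t}.Countable := by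
  constructor
  · intro t ht hct
    refine h.stable hm fun ε hε => ?_
    have e := (hct.eventually (Metric.ball_mem_nhds _ (half_pos hε))).and (hI.mem_nhds ht)
    obtain ⟨u, ⟨u1, u2⟩, u3⟩ := ((e.filter_mono (nhdsWithin_le_nhds (s := Iio t))).and
      self_mem_nhdsWithin).exists
    obtain ⟨v, ⟨v1, v2⟩, v3⟩ := ((e.filter_mono (nhdsWithin_le_nhds (s := Ioi t))).and
      self_mem_nhdsWithin).exists
    refine ⟨D u, D v, hD u u2 t ht u3, hD t ht v v2 v3, (hc u u2).1, ?_⟩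
    filter_upwards [(hc u u2).2.eventually (Metric.ball_mem_nhds _ (half_pos hε)),
      (hc v v2).2.eventually (Metric.ball_mem_nhds _ (half_pos hε))] with a a1 a2
    simp only [Real.dist_eq, abs_lt] at u1 v1 a1 a2
    constructor <;> rw [abs_le] <;> constructor <;> linarith [u1.1, u1.2, v1.1, v1.2, a1.1, a1.2,
      a2.1, a2.2]
  · obtain ⟨s, hs, hM⟩ := mono_b h.hb p.n
    have mo : MonotoneOn (fun t => s * c t) I := fun u hu v hv huv => by
      rcases huv.eq_or_lt with rfl | huv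
      · exact le_rfl
      · exact le_of_tendsto_of_tendsto ((hc u hu).2.const_mul s) ((hc v hv).2.const_mul s)
          ((hM p rfl hm).crit h.hJ (subset_closure.trans ((hD u hu v hv huv).2.trans
            interior_subset)) (hD u hu v hv huv).1 (hc u hu).1.2.1)
    refine mo.countable_not_continuousWithinAt.mono ?_
    intro t ht
    refine ⟨ht.1, fun k => ht.2 ?_⟩
    have k := (k.continuousAt (hI.mem_nhds ht.1)).const_mul s
    have e : (fun t => s * (s * c t)) = c := by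
      funext t
      rcases hs with rfl | rfl <;> ring
    rwa [e] at k

end Vale.Agent.P144N
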